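import Vale.Agent.P002.General.Span

/-! Integral base tails, and local sections of orbit maps of conjugacy classes. -/

open Matrix Filter Topology

namespace Vale.Agent.P002.General

open Vale.Agent.P002.Surface (Mat Tup comm rel mul_adj adj_mul det_adj)
open Vale.Agent.P002.Twisted (IntMat)

attribute [local instance] Matrix.linftyOpNormedAddCommGroup Matrix.linftyOpNormedSpace
  Matrix.linftyOpNormedRing Matrix.linftyOpNormedAlgebra

variable {r n s : ℕ}

/-- A good representative of a conjugacy class: triangular, integral, roots of unity on the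
diagonal. -/
def GoodRep (T : Mat r) : Prop :=
  T.BlockTriangular id ∧ T.det = 1 ∧ (∀ i, ∃ N > 0, T i i ^ N = 1) ∧ ∀ i j, IsIntegral ℤ (T i j)

lemma exists_rep {J : Mat r} (hJ : J.det = 1)
    (hroot : ∀ μ : ℂ, J.charpoly.IsRoot μ → ∃ N > 0, μ ^ N = 1) :
    ∃ S T : Mat r, S.det = 1 ∧ J = S * T * S.adjugate ∧ GoodRep T := by
  obtain ⟨S, T, hS, hJT, hT, -⟩ := exists_jordan J
  have htri : T.BlockTriangular id := by
    intro i j hij
    by_contra hne
    have hij' : j < i := hij
    have := (hT i j hij'.ne' hne).1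
    rw [Fin.lt_def] at hij'; omega
  have hTd : T.det = 1 := by
    rw [hJT, det_mul, det_mul, det_adj hS, hS] at hJ
    simpa using hJ
  have hdiag : ∀ i, ∃ N > 0, T i i ^ N = 1 := by
    intro i
    refine hroot _ ?_
    have hc : J.charpoly = T.charpoly := by
      rw [hJT, Matrix.charpoly_mul_comm, ← mul_assoc, adj_mul hS, one_mul]
    rw [hc, Matrix.charpoly_of_isUpperTriangular T htri, Polynomial.IsRoot.def, Polynomial.eval_prod]
    exact Finset.prod_eq_zero (Finset.mem_univ i) (by simp)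
  refine ⟨S, T, hS, hJT, htri, hTd, hdiag, fun i j => ?_⟩
  by_cases hij : i = j
  · subst hij
    obtain ⟨N, hN, hTN⟩ := hdiag i
    exact isIntegral_root hN hTN
  · by_cases h0 : T i j = 0
    · rw [h0]; exact isIntegral_zero
    · rw [(hT i j hij h0).2.1]; exact isIntegral_one

lemma upper_mul_diag {A B : Mat r} (hA : A.BlockTriangular id) (hB : B.BlockTriangular id)
    (i : Fin r) : (A * B) i i = A i i * B i i := by
  rw [Matrix.mul_apply]
  refine Finset.sum_eq_single i (fun k _ hk => ?_) (by simp)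
  rcases lt_or_gt_of_ne hk with h | h
  · rw [hA h, zero_mul]
  · rw [hB h, mul_zero]

lemma GoodRep.one : GoodRep (1 : Mat r) :=
  ⟨blockTriangular_one, det_one, fun i => ⟨1, one_pos, by simp⟩, fun i j => by
    rw [Matrix.one_apply]; split_ifs
    · exact isIntegral_one
    · exact isIntegral_zero⟩

lemma GoodRep.mul {A B : Mat r} (hA : GoodRep A) (hB : GoodRep B) : GoodRep (A * B) := by
  refine ⟨hA.1.mul hB.1, by rw [det_mul, hA.2.1, hB.2.1, one_mul], fun i => ?_, fun i j => ?_⟩
  · obtain ⟨N, hN, hAN⟩ := hA.2.2.1 i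
    obtain ⟨M, hM, hBM⟩ := hB.2.2.1 i
    refine ⟨N * M, Nat.mul_pos hN hM, ?_⟩
    rw [upper_mul_diag hA.1 hB.1, mul_pow, pow_mul, hAN, one_pow, mul_comm N M, pow_mul, hBM,
      one_pow, one_mul]
  · rw [Matrix.mul_apply]
    exact IsIntegral.sum _ fun k _ => (hA.2.2.2 i k).mul (hB.2.2.2 k j)

lemma GoodRep.listProd {L : List (Mat r)} (h : ∀ M ∈ L, GoodRep M) : GoodRep L.prod := by
  induction L with
  | nil => exact GoodRep.one
  | cons a L ih => rw [List.prod_cons]; exact (h a (by simp)).mul (ih fun b hb => h b (by simp [hb]))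

/-- A diagonal change of basis multiplying superdiagonals by powers of `m`. -/
lemma exists_scaling (hr : 0 < r) {m : ℂ} (hm : m ≠ 0) :
    ∃ D : Mat r, D.det = 1 ∧ (∀ k : Fin r → ℂ, D.adjugate * diagonal k * D = diagonal k ∧
      D * diagonal k * D.adjugate = diagonal k) ∧
      ∀ Q : Mat r, Q.BlockTriangular id → ∀ i j,
        (D * Q * D.adjugate) i j = m ^ ((j : ℕ) - i) * Q i j := by
  obtain ⟨c, hc⟩ := IsAlgClosed.exists_pow_nat_eq (∏ i : Fin r, m ^ (r - 1 - (i : ℕ)))⁻¹ hr
  have hP : (∏ i : Fin r, m ^ (r - 1 - (i : ℕ))) ≠ 0 :=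
    Finset.prod_ne_zero_iff.2 fun i _ => pow_ne_zero _ hm
  set D : Mat r := diagonal fun i => c * m ^ (r - 1 - (i : ℕ)) with hD
  have hDd : D.det = 1 := by
    rw [hD, det_diagonal, Finset.prod_mul_distrib, Finset.prod_const, Finset.card_univ,
      Fintype.card_fin, hc, inv_mul_cancel₀ hP]
  have hcomm : ∀ k : Fin r → ℂ, diagonal k * D = D * diagonal k := fun k => by
    simp only [hD, diagonal_mul_diagonal, mul_comm]
  refine ⟨D, hDd, fun k => ⟨?_, ?_⟩, fun Q hQ i j => ?_⟩
  · rw [mul_assoc, hcomm, ← mul_assoc, adj_mul hDd, one_mul]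
  · rw [← hcomm, mul_assoc, mul_adj hDd, mul_one]
  · let Q' : Mat r := Matrix.of fun i j => m ^ ((j : ℕ) - i) * Q i j
    have h : D * Q = Q' * D := by
      ext i j
      simp only [Q', hD, Matrix.diagonal_mul, Matrix.mul_diagonal, Matrix.of_apply]
      rcases le_or_gt i j with hij | hij
      · rw [show r - 1 - (i : ℕ) = ((j : ℕ) - i) + (r - 1 - j) by
          rw [Fin.le_def] at hij; omega, pow_add]
        ring
      · rw [hQ hij]; ring
    rw [h, mul_assoc, mul_adj hDd, mul_one]
    rfl

/-- After one diagonal change of basis, triangular representatives are completed to a relation by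
one integral commutator with a diagonal entry of distinct eigenvalues. -/
lemma exists_handle (hr : 0 < r) {T : Fin s → Mat r} (hT : ∀ i, GoodRep (T i)) :
    ∃ (D : Mat r) (h : Fin r → ℂ) (Y : Mat r), D.det = 1 ∧
      (∀ i a b, IsIntegral ℤ ((D * T i * D.adjugate) a b)) ∧ Function.Injective h ∧
      (diagonal h).det = 1 ∧ (∀ a b, IsIntegral ℤ (diagonal h a b)) ∧ Y.det = 1 ∧
      (∀ a b, IsIntegral ℤ (Y a b)) ∧
      comm (diagonal h, Y) * (List.ofFn fun i => D * T i * D.adjugate).prod = 1 := by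
  classical
  set P : Mat r := (List.ofFn T).prod with hPdef
  obtain ⟨htri, hdet, hroot, hint⟩ : GoodRep P := GoodRep.listProd fun M hM => by
    obtain ⟨i, rfl⟩ := (List.mem_ofFn' _ _).1 hM
    exact hT i
  obtain ⟨h, S, X, hinj, hhi, hprod, hS, hSi, hX, hXt, hX1, hXa, k, hSh, hXe⟩ :=
    exists_triangular_comm hr htri hdet (fun i => mem_μs.2 (hroot i))
      fun i j => mem_algebraicClosure_iff.2 (hint i j).tower_top.isAlgebraic
  -- clear the denominators of `X`
  have hm0 : ∀ q : Fin r × Fin r, ∃ y : ℤ, y ≠ 0 ∧ IsIntegral ℤ (y • X q.1 q.2) := fun q =>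
    (IsFractionRing.isAlgebraic_iff ℤ ℚ ℂ).2
      (mem_algebraicClosure_iff.1 (hXa q.1 q.2)) |>.exists_integral_multiple
  choose y hy0 hy using hm0
  set m : ℤ := ∏ q, y q
  have hm : (m : ℂ) ≠ 0 := Int.cast_ne_zero.2 (Finset.prod_ne_zero_iff.2 fun q _ => hy0 q)
  have hmX : ∀ a b, IsIntegral ℤ ((m : ℂ) * X a b) := by
    intro a b
    obtain ⟨v, hv⟩ : y (a, b) ∣ m := Finset.dvd_prod_of_mem y (Finset.mem_univ (a, b))
    have := (hy (a, b)).smul v
    rwa [smul_smul, mul_comm v, ← hv, zsmul_eq_mul] at this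
  obtain ⟨D, hD, hDk, hDQ⟩ := exists_scaling hr hm
  have hDi : ∀ i a b, IsIntegral ℤ ((D * T i * D.adjugate) a b) := fun i a b => by
    rw [hDQ _ (hT i).1]
    exact (isIntegral_algebraMap.pow _).mul ((hT i).2.2.2 a b)
  set X' : Mat r := D * X * D.adjugate
  have hX'i : ∀ a b, IsIntegral ℤ (X' a b) := fun a b => by
    show IsIntegral ℤ ((D * X * D.adjugate) a b)
    rw [hDQ _ hXt]
    rcases lt_trichotomy a b with hab | rfl | hab
    · rw [Fin.lt_def] at hab
      rw [show (b : ℕ) - a = ((b : ℕ) - a - 1) + 1 by omega, pow_succ, mul_assoc]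
      exact (isIntegral_algebraMap.pow _).mul (hmX a b)
    · rw [hX1, mul_one]; exact isIntegral_algebraMap.pow _
    · rw [hXt hab, mul_zero]; exact isIntegral_zero
  have hX' : X'.det = 1 := by simp [X', det_mul, det_adj hD, hD, hX]
  have hH : (diagonal h).det = 1 := by rw [det_diagonal, hprod]
  have hXS : (X' * S).det = 1 := by rw [det_mul, hX', hS, one_mul]
  have hP' : ∀ L : List (Mat r),
      (L.map fun M => D * M * D.adjugate).prod = D * L.prod * D.adjugate := by
    intro L
    induction L with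
    | nil => simp [mul_adj hD]
    | cons M L ih =>
      rw [List.map_cons, List.prod_cons, ih, List.prod_cons]
      simp only [mul_assoc]
      rw [← mul_assoc D.adjugate D, adj_mul hD, one_mul]
  have hcm : comm (X' * S, diagonal h) = D * P * D.adjugate := by
    calc comm (X' * S, diagonal h)
        = X' * (S * diagonal h * S.adjugate) * X'.adjugate * (diagonal h).adjugate := by
          simp only [Surface.comm, adjugate_mul_distrib, mul_assoc]
      _ = D * (X * (D.adjugate * diagonal k * D) * X.adjugate) * D.adjugate *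
            (diagonal h).adjugate := by
          rw [hSh]
          simp only [X', adjugate_mul_distrib, adj_adj' hD, mul_assoc]
      _ = D * P * (diagonal h * D.adjugate) * (diagonal h).adjugate := by
          rw [(hDk k).1, ← hXe]; simp only [mul_assoc]
      _ = D * P * D.adjugate * (D * diagonal h * D.adjugate) * (diagonal h).adjugate := by
          simp only [mul_assoc]
          rw [← mul_assoc D.adjugate D, adj_mul hD, one_mul]
      _ = D * P * D.adjugate := by rw [(hDk h).2, mul_assoc _ (diagonal h), mul_adj hH, mul_one]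
  have hhd : ∀ a b, IsIntegral ℤ (diagonal h a b) := fun a b => by
    rw [diagonal_apply]; split_ifs
    · exact hhi a
    · exact isIntegral_zero
  have hXSi : ∀ a b, IsIntegral ℤ ((X' * S) a b) := fun a b => by
    rw [Matrix.mul_apply]; exact IsIntegral.sum _ fun q _ => (hX'i a q).mul (hSi q b)
  refine ⟨D, h, X' * S, hD, hDi, hinj, hH, hhd, hXS, hXSi, ?_⟩
  rw [show (List.ofFn fun i => D * T i * D.adjugate) =
    (List.ofFn T).map fun M => D * M * D.adjugate by rw [List.map_ofFn]; rfl, hP', ← hcm]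
  exact Surface.comm_mirror hH hXS

/-- Triangular representatives are completed to a relation by integral handles. -/
lemma exists_handles (hr : 0 < r) (hn : 1 ≤ n) {T : Fin s → Mat r} (hT : ∀ i, GoodRep (T i)) :
    ∃ D : Mat r, D.det = 1 ∧ (∀ i a b, IsIntegral ℤ ((D * T i * D.adjugate) a b)) ∧
      ∃ N : Tup n r, (∀ i, (N i).1.det = 1 ∧ (N i).2.det = 1) ∧
        rel N * (List.ofFn fun i => D * T i * D.adjugate).prod = 1 ∧
        ∀ i a b, IsIntegral ℤ ((N i).1 a b) ∧ IsIntegral ℤ ((N i).2 a b) := by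
  obtain ⟨D, h, Y, hD, hDi, -, hH, hhd, hY, hYi, hrel⟩ := exists_handle hr hT
  obtain ⟨l, rfl⟩ : ∃ l, n = l + 1 := ⟨n - 1, by omega⟩
  have h1 : ∀ x y : Fin r, IsIntegral ℤ ((1 : Mat r) x y) := fun x y => GoodRep.one.2.2.2 x y
  refine ⟨D, hD, hDi, Fin.cons (diagonal h, Y) (fun _ => (1, 1)),
    Fin.cases ⟨hH, hY⟩ fun _ => ⟨det_one, det_one⟩, ?_,
    Fin.cases (fun a b => ⟨hhd a b, hYi a b⟩) fun _ a b => ⟨h1 a b, h1 a b⟩⟩
  rw [rel, List.ofFn_succ, List.prod_cons]
  show comm (diagonal h, Y) * (List.ofFn fun _ : Fin l => comm (1, 1)).prod * _ = 1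
  rw [show comm ((1 : Mat r), (1 : Mat r)) = 1 from Surface.comm_one, List.ofFn_const,
    List.prod_replicate, one_pow, mul_one, hrel]

/-- Scale a matrix to determinant one. -/
noncomputable def unitDet (K : Mat r) : Mat r := Complex.exp (-Complex.log K.det / r) • K

/-- Near `T`, the conjugators can be chosen near the identity. -/
lemma orbit_section (hr : 0 < r) {T : Mat r} {V : Set (Mat r)}
    (hV : V ∈ 𝓝 (1 : Mat r)) :
    ∀ᶠ X in 𝓝 T, (∃ k : Mat r, k.det = 1 ∧ X = k * T * k.adjugate) →
      ∃ k ∈ V, k.det = 1 ∧ X = k * T * k.adjugate := by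
  let L : Mat r → (Mat r →ₗ[ℂ] Mat r) := fun X => LinearMap.mulLeft ℂ X - LinearMap.mulRight ℂ T
  have hL : ∀ X K, L X K = X * K - K * T := fun X K => rfl
  set kT := LinearMap.ker (L T)
  obtain ⟨W, hW⟩ := Submodule.exists_isCompl kT
  have hinj : LinearMap.ker ((L T).comp W.subtype) = ⊥ := by
    rw [LinearMap.ker_eq_bot']
    intro w hw
    exact Subtype.ext (Submodule.disjoint_def.1 hW.disjoint w hw w.2)
  obtain ⟨C, hC0, hC⟩ := ((L T).comp W.subtype).exists_antilipschitzWith hinj
  set c : ℝ := (C : ℝ)⁻¹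
  have hc : 0 < c := inv_pos.2 (by exact_mod_cast hC0)
  have hlow : ∀ w : W, c * ‖(w : Mat r)‖ ≤ ‖L T w‖ := by
    intro w
    have := hC.le_mul_dist w 0
    rw [map_zero, dist_zero_right, dist_zero_right] at this
    rw [inv_mul_le_iff₀ (by exact_mod_cast hC0)]
    exact this
  -- the normalisation is continuous at one
  have hdet : Continuous fun K : Mat r => K.det := continuous_id.matrix_det
  have hnorm : ∀ᶠ K in 𝓝 (1 : Mat r), unitDet K ∈ V ∧ K.det ≠ 0 := by
    have hcont : ContinuousAt (unitDet (r := r)) 1 := by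
      have h1 : ContinuousAt (fun K : Mat r => Complex.log K.det) 1 :=
        (continuousAt_clog (by simp [Complex.slitPlane])).comp hdet.continuousAt
      exact ((Complex.continuous_exp.continuousAt).comp (h1.neg.div_const _)).smul continuousAt_id
    have e : unitDet (1 : Mat r) = 1 := by simp [unitDet]
    refine (hcont.eventually (by rw [e]; exact hV)).and ?_
    exact hdet.continuousAt.eventually_ne (by simp)
  obtain ⟨η, hη, hη'⟩ := Metric.eventually_nhds_iff.1 hnorm
  refine Metric.eventually_nhds_iff.2 ⟨min (c / 2) (η * (c / 2)), by positivity, fun X hX hcls => ?_⟩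
  rw [dist_eq_norm] at hX
  obtain ⟨k, hk, hXk⟩ := hcls
  have hlowX : ∀ w : W, c / 2 * ‖(w : Mat r)‖ ≤ ‖L X w‖ := by
    intro w
    have h1 := hlow w
    have h2 : ‖L T w - L X w‖ ≤ c / 2 * ‖(w : Mat r)‖ := by
      rw [hL, hL, show T * (w : Mat r) - w * T - (X * w - w * T) = (T - X) * w by noncomm_ring]
      refine (norm_mul_le _ _).trans (mul_le_mul_of_nonneg_right ?_ (norm_nonneg _))
      rw [norm_sub_rev]
      exact (hX.trans_le (min_le_left _ _)).le
    have h3 : ‖L T w‖ ≤ ‖L X w‖ + ‖L T w - L X w‖ := norm_le_norm_add_norm_sub' _ _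
    linarith
  have hdis : LinearMap.ker (L X) ⊓ W = ⊥ := by
    rw [Submodule.eq_bot_iff]
    rintro w ⟨hw1, hw2⟩
    have := hlowX ⟨w, hw2⟩
    rw [show L X w = 0 from hw1, norm_zero] at this
    exact norm_le_zero_iff.1 (by nlinarith [norm_nonneg w])
  have hk1 := mul_adj hk
  have hk2 := adj_mul hk
  let e : Mat r ≃ₗ[ℂ] Mat r := LinearEquiv.ofLinearMap (LinearMap.mulLeft ℂ k)
    (LinearMap.mulLeft ℂ k.adjugate) (by ext M : 1; simp [← mul_assoc, hk1])
    (by ext M : 1; simp [← mul_assoc, hk2])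
  have hker : LinearMap.ker (L X) = kT.map e.toLinearMap := by
    ext M
    simp only [Submodule.mem_map, LinearMap.mem_ker, hL, kT, sub_eq_zero]
    constructor
    · intro hM
      refine ⟨k.adjugate * M, ?_, by show k * (k.adjugate * M) = M; rw [← mul_assoc, hk1, one_mul]⟩
      calc T * (k.adjugate * M) = k.adjugate * k * T * k.adjugate * M := by
            rw [hk2, one_mul, mul_assoc]
        _ = k.adjugate * (X * M) := by rw [hXk]; simp only [mul_assoc]
        _ = k.adjugate * M * T := by rw [hM, mul_assoc]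
    · rintro ⟨N, hN, rfl⟩
      show X * (k * N) = k * N * T
      calc X * (k * N) = k * T * (k.adjugate * k) * N := by rw [hXk]; simp only [mul_assoc]
        _ = k * (T * N) := by rw [hk2, mul_one, mul_assoc]
        _ = k * N * T := by rw [hN, mul_assoc]
  have htop : LinearMap.ker (L X) ⊔ W = ⊤ := by
    refine Submodule.eq_top_of_finrank_eq ?_
    have h1 := Submodule.finrank_sup_add_finrank_inf_eq (LinearMap.ker (L X)) W
    rw [hdis, finrank_bot, add_zero, hker, LinearEquiv.finrank_map_eq] at h1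
    rw [hker, h1, ← Submodule.finrank_add_eq_of_isCompl hW]
  obtain ⟨K, hK, w, hw, hKw⟩ := Submodule.mem_sup.1
    (show (1 : Mat r) ∈ LinearMap.ker (L X) ⊔ W by rw [htop]; exact Submodule.mem_top)
  have hwn : c / 2 * ‖w‖ ≤ ‖X - T‖ := by
    refine (hlowX ⟨w, hw⟩).trans (le_of_eq ?_)
    show ‖L X w‖ = _
    rw [show w = 1 - K from eq_sub_of_add_eq' hKw, map_sub, show L X K = 0 from hK, sub_zero, hL,
      mul_one, one_mul]
  have hK1 : dist K 1 < η := by
    rw [dist_eq_norm, show K - 1 = -w by rw [← hKw]; abel, norm_neg]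
    have := hX.trans_le (min_le_right _ _)
    nlinarith
  obtain ⟨hKV, hKd⟩ := hη' hK1
  have hXK : X * K = K * T := sub_eq_zero.1 hK
  have hd : (unitDet K).det = 1 := by
    rw [unitDet, det_smul, Fintype.card_fin, ← Complex.exp_nat_mul,
      mul_div_cancel₀ _ (by exact_mod_cast hr.ne'), Complex.exp_neg, Complex.exp_log hKd,
      inv_mul_cancel₀ hKd]
  refine ⟨unitDet K, hKV, hd, ?_⟩
  have h : X * unitDet K = unitDet K * T := by
    simp only [unitDet, mul_smul_comm, smul_mul_assoc, hXK]
  rw [← h, mul_assoc, mul_adj hd, mul_one]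

end Vale.Agent.P002.General
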