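import Vale.Agent.P002.General.Moves

/-! Composed flows, and the covering and primality lemmas for a parametrised piece. -/

open Matrix Filter Topology

namespace Vale.Agent.P002.General

open Vale.Agent.P002.Surface (Mat Tup PF PMap exists_curve)

attribute [local instance] Matrix.linftyOpNormedAddCommGroup Matrix.linftyOpNormedSpace
  Matrix.linftyOpNormedRing Matrix.linftyOpNormedAlgebra

variable {r n s : ℕ} {R : Subring ℂ} {J : Fin s → Mat r}

/-- Compose a list of flows at times `t`. -/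
def composeS : (N : ℕ) → (Fin N → ℂ → Sp n s r → Sp n s r) → (Fin N → ℂ) → Sp n s r → Sp n s r
  | 0, _, _, x => x
  | N + 1, Ψ, t, x => Ψ 0 (t 0) (composeS N (fun i => Ψ i.succ) (fun i => t i.succ) x)

variable {y0 : YSp n s r}

lemma composeS_contDiff : ∀ (N : ℕ) (Ψ : Fin N → ℂ → Sp n s r → Sp n s r),
    (∀ i, Nice J R y0 (Ψ i)) →
    ContDiff ℂ 1 (fun q : (Fin N → ℂ) × Sp n s r => composeS N Ψ q.1 q.2)
  | 0, _, _ => contDiff_snd
  | N + 1, Ψ, hΨ => by
    have ih := composeS_contDiff N (fun i => Ψ i.succ) fun i => hΨ i.succ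
    have ht : ContDiff ℂ 1 (fun q : (Fin (N + 1) → ℂ) × Sp n s r =>
        (fun i : Fin N => q.1 i.succ)) :=
      contDiff_pi.2 fun i => (contDiff_apply ℂ ℂ i.succ).comp contDiff_fst
    exact (hΨ 0).1.comp (((contDiff_apply ℂ ℂ (0 : Fin (N + 1))).comp contDiff_fst).prodMk
      (ih.comp (ht.prodMk contDiff_snd)))

lemma composeS_zero : ∀ (N : ℕ) (Ψ : Fin N → ℂ → Sp n s r → Sp n s r),
    (∀ i, Nice J R y0 (Ψ i)) → ∀ x ∈ HomS J, composeS N Ψ 0 x = x
  | 0, _, _, _, _ => rfl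
  | N + 1, Ψ, hΨ, x, hx => by
    show Ψ 0 0 (composeS N (fun i => Ψ i.succ) 0 x) = x
    rw [composeS_zero N _ (fun i => hΨ i.succ) x hx, (hΨ 0).2.1 x hx]

lemma composeS_single : ∀ (N : ℕ) (Ψ : Fin N → ℂ → Sp n s r → Sp n s r),
    (∀ i, Nice J R y0 (Ψ i)) → ∀ (i : Fin N) (u : ℂ) (x : Sp n s r), x ∈ HomS J →
      Ψ i u x ∈ HomS J → composeS N Ψ (Pi.single i u) x = Ψ i u x
  | 0, _, _, i, _, _, _, _ => i.elim0
  | N + 1, Ψ, hΨ, i, u, x, hx, hux => by
    refine Fin.cases ?_ (fun j => ?_) i hux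
    · intro _
      show Ψ 0 _ (composeS N (fun i => Ψ i.succ) _ x) = Ψ 0 u x
      have e : (fun i : Fin N => Pi.single (M := fun _ : Fin (N + 1) => ℂ) 0 u i.succ) = 0 :=
        funext fun i => Pi.single_eq_of_ne (Fin.succ_ne_zero i) u
      rw [Pi.single_eq_same, e,
        composeS_zero N _ (fun i => hΨ i.succ) x hx]
    · intro hj
      show Ψ 0 _ (composeS N (fun i => Ψ i.succ) _ x) = Ψ j.succ u x
      have e : (fun k : Fin N => Pi.single (M := fun _ : Fin (N + 1) => ℂ) j.succ u k.succ) =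
          Pi.single (M := fun _ : Fin N => ℂ) j u := by
        funext k; simp [Pi.single_apply, Fin.succ_inj]
      rw [e, composeS_single N _ (fun i => hΨ i.succ) j u x hx hj,
        Pi.single_eq_of_ne (Fin.succ_ne_zero j).symm, (hΨ 0).2.1 _ hj]

lemma base_mem_cl (hy : GoodY y0) (hyi : IntY R y0) (hy1 : tailRel J y0 = 1)
    (K : ℕ) (Φ : Fin K → ℂ → Tup (0 + 2) r → Tup (0 + 2) r) (hΦ : ∀ i, Surface.Nice (Φ i))
    {a b : Mat r} (ha : a.det = 1) (hb : b.det = 1) (t : Fin K → ℂ) :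
    (Surface.compose K Φ t (Surface.Mir 0 a b), y0) ∈ ClS J R :=
  ClS.of_surface hy hyi hy1 (Surface.compose_mem_cl K Φ hΦ _ ⟨a, b, ha, hb, rfl⟩ t)

lemma composeS_mem_cl (hy : GoodY y0) (hyi : IntY R y0) (hy1 : tailRel J y0 = 1)
    (K : ℕ) (Φ : Fin K → ℂ → Tup (0 + 2) r → Tup (0 + 2) r) (hΦ : ∀ i, Surface.Nice (Φ i)) :
    ∀ (N : ℕ) (Ψ : Fin N → ℂ → Sp n s r → Sp n s r), (∀ i, Nice J R y0 (Ψ i)) →
      ∀ a b : Mat r, a.det = 1 → b.det = 1 → ∀ (u : Fin N → ℂ) (t : Fin K → ℂ),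
        composeS N Ψ u (Surface.compose K Φ t (Surface.Mir 0 a b), y0) ∈ ClS J R
  | 0, _, _, a, b, ha, hb, _, t => base_mem_cl hy hyi hy1 K Φ hΦ ha hb t
  | N + 1, Ψ, hΨ, a, b, ha, hb, u, t => by
    obtain ⟨hc, -, a', b', ha', hb', hp⟩ := hΨ 0
    obtain ⟨ca, hca, hcad, hca0, hca1⟩ := exists_curve ha' ha
    obtain ⟨cb, hcb, hcbd, hcb0, hcb1⟩ := exists_curve hb' hb
    let rest := composeS N (fun i => Ψ i.succ)
    let line : ℂ → Sp n s r := fun z =>
      rest (z • fun i => u i.succ) (Surface.compose K Φ (z • t) (Surface.Mir 0 (ca z) (cb z)), y0)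
    have hmir : ContDiff ℂ 1 (fun z => Surface.Mir 0 (ca z) (cb z)) :=
      (Surface.PMap.mir (T := Mat r × Mat r) PMap.fst PMap.snd).contDiff.comp (hca.prodMk hcb)
    have hbase : ContDiff ℂ 1 (fun z : ℂ =>
        ((Surface.compose K Φ (z • t) (Surface.Mir 0 (ca z) (cb z)), y0) : Sp n s r)) :=
      ((Surface.compose_contDiff K Φ hΦ).comp
        ((contDiff_id.smul contDiff_const).prodMk hmir)).prodMk contDiff_const
    have hline : ContDiff ℂ 1 line := (composeS_contDiff N _ fun i => hΨ i.succ).comp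
      ((contDiff_id.smul contDiff_const).prodMk hbase)
    have hwit : ((Surface.Mir 0 a' b', y0) : Sp n s r) ∈ HomS J :=
      ⟨(Surface.Mir_mem_hom ha' hb').1, hy, by
        rw [(Surface.Mir_mem_hom ha' hb').2, hy1, one_mul]⟩
    have h0 : line 0 = (Surface.Mir 0 a' b', y0) := by
      simp only [line, rest, zero_smul, hca0, hcb0,
        Surface.compose_zero K Φ hΦ _ (Surface.Mir_mem_hom ha' hb')]
      exact composeS_zero N _ (fun i => hΨ i.succ) _ hwit
    have := hp line hline (fun z => composeS_mem_cl hy hyi hy1 K Φ hΦ N _ (fun i => hΨ i.succ) _ _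
      (hcad z) (hcbd z) _ _) h0 (u 0) 1
    show Ψ 0 (u 0) (rest (fun i => u i.succ) _) ∈ ClS J R
    simpa [line, hca1, hcb1] using this

section param

variable {T E G : Type*} [NormedAddCommGroup T] [NormedSpace ℂ T] [FiniteDimensional ℂ T]
  [NormedAddCommGroup E] [NormedSpace ℂ E] [FiniteDimensional ℂ E]
  [NormedAddCommGroup G] [NormedSpace ℂ G]

/-- A parametrised piece of a fibre whose velocities fill the kernel covers a neighbourhood. -/
lemma open_of_param [FiniteDimensional ℂ G] {F : E → G} (hF : ContDiff ℂ 1 F) {Φ : T → E}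
    (hΦ : ContDiff ℂ 1 Φ) {c : G} (hc : ∀ t, F (Φ t) = c)
    (hker : ∀ w, fderiv ℂ F (Φ 0) w = 0 → ∃ v, fderiv ℂ Φ 0 v = w) :
    ∃ U : Set E, IsOpen U ∧ Φ 0 ∈ U ∧ ∀ x ∈ U, F x = c → ∃ t, Φ t = x := by
  set p := Φ 0 with hp
  set D := fderiv ℂ Φ 0
  have hD : HasStrictFDerivAt Φ D 0 := hΦ.contDiffAt.hasStrictFDerivAt one_ne_zero
  set W := (D : T →ₗ[ℂ] E).range with hW
  obtain ⟨π₀, hπ₀⟩ := W.subtype.exists_leftInverse_of_injective W.ker_subtype
  let π : E →L[ℂ] W := LinearMap.toContinuousLinearMap π₀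
  have hπ : ∀ v : W, π (v : E) = v := fun v => LinearMap.congr_fun hπ₀ v
  have hG : map (fun t => π (Φ t)) (𝓝 0) = 𝓝 (π p) := by
    have hs : HasStrictFDerivAt (fun t => π (Φ t)) (π.comp D) 0 :=
      π.hasStrictFDerivAt.comp 0 hD
    refine (hs.map_nhds_eq_of_surj (LinearMap.range_eq_top.2 fun v => ?_)).trans rfl
    obtain ⟨t, ht⟩ := v.2
    exact ⟨t, by show π (D t) = v; rw [show D t = (v : E) from ht, hπ]⟩
  obtain ⟨V, hV, hVinj⟩ : ∃ V ∈ 𝓝 p, ∀ x ∈ V, ∀ y ∈ V, F x = F y → π x = π y → x = y := by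
    let K : E → G × W := fun x => (F x, π x)
    have hF' : HasStrictFDerivAt F (fderiv ℂ F p) p :=
      hF.contDiffAt.hasStrictFDerivAt one_ne_zero
    have hK : HasStrictFDerivAt K ((fderiv ℂ F p).prod π) p := hF'.prodMk π.hasStrictFDerivAt
    have hker' : LinearMap.ker ((fderiv ℂ F p).prod π).toLinearMap = ⊥ := by
      rw [LinearMap.ker_eq_bot']
      intro w hw
      obtain ⟨v, hv⟩ := hker w (congrArg Prod.fst hw)
      have h2 : π w = 0 := congrArg Prod.snd hw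
      have := hπ ⟨w, v, hv⟩
      rw [h2] at this
      exact (congrArg Subtype.val this).symm
    obtain ⟨L₀, hL₀⟩ := LinearMap.exists_leftInverse_of_injective _ hker'
    let L := LinearMap.toContinuousLinearMap L₀
    have hLK : HasStrictFDerivAt (fun x => L (K x))
        ((ContinuousLinearEquiv.refl ℂ E : E ≃L[ℂ] E) : E →L[ℂ] E) p := by
      have h' := L.hasStrictFDerivAt.comp p hK
      refine h'.congr_fderiv ?_
      ext1 w
      exact LinearMap.congr_fun hL₀ w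
    have hev := hLK.isLittleO.bound (show (0 : ℝ) < 1 / 2 by norm_num)
    rw [nhds_prod_eq] at hev
    obtain ⟨pa, hpa, pb, hpb, hVb⟩ := eventually_prod_iff.1 hev
    refine ⟨_, hpa.and hpb, fun x hx y hy h1 h2 => ?_⟩
    have hb : ‖L (K x) - L (K y) - (x - y)‖ ≤ 1 / 2 * ‖x - y‖ := hVb hx.1 hy.2
    rw [show K x = K y by simp only [K, h1, h2], sub_self, zero_sub, norm_neg] at hb
    exact sub_eq_zero.1 (norm_le_zero_iff.1 (by linarith))
  have hΦV : ∀ᶠ t in 𝓝 (0 : T), Φ t ∈ V := hΦ.continuous.tendsto 0 hV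
  have hGT : (fun t => π (Φ t)) '' {t | Φ t ∈ V} ∈ 𝓝 (π p) := hG ▸ image_mem_map hΦV
  refine ⟨interior V ∩ π ⁻¹' interior ((fun t => π (Φ t)) '' {t | Φ t ∈ V}),
    isOpen_interior.inter (isOpen_interior.preimage π.continuous),
    ⟨mem_interior_iff_mem_nhds.2 hV, mem_interior_iff_mem_nhds.2 hGT⟩, ?_⟩
  rintro x ⟨hxV, hxπ⟩ hxc
  obtain ⟨t, ht, hπt⟩ := interior_subset hxπ
  exact ⟨t, hVinj _ ht _ (interior_subset hxV) (by rw [hc, hxc]) hπt⟩

/-- A product vanishing along an entire parametrisation has a vanishing factor. -/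
lemma prime_of_param {Φ : T → E} (hΦ : ContDiff ℂ 1 Φ) {f g : E → ℂ} (hf : f ∈ PF E)
    (hg : g ∈ PF E) (h : ∀ᶠ t in 𝓝 (0 : T), f (Φ t) * g (Φ t) = 0) :
    (∀ t, f (Φ t) = 0) ∨ (∀ t, g (Φ t) = 0) := by
  have entire : ∀ {q : E → ℂ}, q ∈ PF E → ∀ a c : T,
      Differentiable ℂ (fun z : ℂ => q (Φ (a + z • c))) := fun hq a c =>
    ((PF.contDiff hq).comp (hΦ.comp
      (contDiff_const.add (contDiff_id.smul contDiff_const)))).differentiable one_ne_zero
  have ident : ∀ {q : ℂ → ℂ}, Differentiable ℂ q → (∀ᶠ z in 𝓝 0, q z = 0) → ∀ z, q z = 0 :=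
    fun {q} hq hev z => (show AnalyticOnNhd ℂ q Set.univ from fun w _ => hq.analyticAt w)
      |>.eqOn_zero_of_preconnected_of_eventuallyEq_zero isPreconnected_univ
        (Set.mem_univ (0 : ℂ)) hev (Set.mem_univ z)
  have hall : ∀ t, f (Φ t) * g (Φ t) = 0 := by
    intro t
    have hc : Tendsto (fun z : ℂ => (0 : T) + z • t) (𝓝 0) (𝓝 0) := by
      have h' : Continuous fun z : ℂ => (0 : T) + z • t := by fun_prop
      have := h'.tendsto 0
      simpa using this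
    simpa using ident ((entire hf 0 t).mul (entire hg 0 t)) (hc.eventually h) 1
  by_cases hf0 : ∀ t, f (Φ t) = 0
  · exact Or.inl hf0
  · obtain ⟨t₁, ht₁⟩ := not_forall.1 hf0
    refine Or.inr fun t₂ => ?_
    have hne : ∀ᶠ z : ℂ in 𝓝 0, g (Φ (t₁ + z • (t₂ - t₁))) = 0 := by
      have : ∀ᶠ z : ℂ in 𝓝 0, f (Φ (t₁ + z • (t₂ - t₁))) ≠ 0 :=
        (entire hf t₁ (t₂ - t₁)).continuous.continuousAt.eventually_ne (by simpa using ht₁)
      exact this.mono fun z hz => (mul_eq_zero.1 (hall _)).resolve_left hz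
    simpa using ident (entire hg t₁ (t₂ - t₁)) hne 1

end param

end Vale.Agent.P002.General
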