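import Vale.Agent.P002.Surface.Basic

/-! Jordan bidiagonal representatives of conjugacy classes in `SL_r`. -/

open Matrix Polynomial
open scoped DirectSum

namespace Vale.Agent.P002.General

open Vale.Agent.P002.Surface (Mat)

section quotient

variable (l : ℂ) (e : ℕ)

/-- `ℂ[X] / (X - l)^e`. -/
abbrev JQ : Type := ℂ[X] ⧸ (ℂ[X] ∙ (X - C l) ^ e)

/-- The class of a polynomial in `ℂ[X] / (X - l)^e`. -/
noncomputable abbrev jmk : ℂ[X] →ₗ[ℂ[X]] JQ l e := (ℂ[X] ∙ (X - C l) ^ e).mkQ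

lemma jmk_eq_zero {p : ℂ[X]} : jmk l e p = 0 ↔ (X - C l) ^ e ∣ p := by
  rw [Submodule.mkQ_apply, Submodule.Quotient.mk_eq_zero, Submodule.mem_span_singleton]
  simp only [smul_eq_mul, dvd_iff_exists_eq_mul_left, eq_comm]

lemma jmk_repr (q : JQ l e) :
    ∃ a : Fin e → ℂ, q = jmk l e (∑ k : Fin e, C (a k) * (X - C l) ^ (k : ℕ)) := by
  obtain ⟨p, rfl⟩ := Submodule.mkQ_surjective _ q
  refine ⟨fun k => (taylor l p).coeff k, ?_⟩
  rw [← sub_eq_zero, ← map_sub, jmk_eq_zero]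
  obtain ⟨u, hu⟩ : X ^ e ∣ taylor l (p - ∑ k : Fin e, C ((taylor l p).coeff k) * (X - C l) ^ (k : ℕ)) := by
    rw [X_pow_dvd_iff]
    intro d hd
    simp only [map_sub, map_sum, taylor_mul, taylor_pow, taylor_C, map_sub, taylor_X,
      add_sub_cancel_right, coeff_sub, finsetSum_coeff, coeff_C_mul_X_pow]
    rw [Finset.sum_eq_single ⟨d, hd⟩ (fun b _ hb => if_neg fun h => hb (Fin.ext h.symm))
      (by simp)]
    simp
  refine ⟨taylor (-l) u, ?_⟩
  have := congrArg (taylor (-l)) hu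
  rw [taylor_taylor, taylor_mul, taylor_pow, taylor_X] at this
  simpa [sub_eq_add_neg] using this

lemma jmk_indep (a : Fin e → ℂ)
    (h : jmk l e (∑ k : Fin e, C (a k) * (X - C l) ^ (k : ℕ)) = 0) (k : Fin e) : a k = 0 := by
  obtain ⟨u, hu⟩ := (jmk_eq_zero l e).1 h
  have := congrArg (fun p => (taylor l p).coeff k) hu
  simp only [map_sum, taylor_mul, taylor_pow, taylor_C, map_sub, taylor_X,
    add_sub_cancel_right, finsetSum_coeff, coeff_C_mul_X_pow, coeff_X_pow_mul',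
    not_le.2 k.isLt, if_false] at this
  rw [Finset.sum_eq_single k (fun b _ hb => if_neg fun h => hb (Fin.ext h.symm)) (by simp)] at this
  simpa using this

end quotient

/-- `T` is upper bidiagonal with equal diagonal entries wherever the superdiagonal is nonzero. -/
def Jordan {r : ℕ} (T : Mat r) : Prop :=
  ∀ i j : Fin r, i ≠ j → T i j ≠ 0 → (i : ℕ) + 1 = j ∧ T i j = 1 ∧ T i i = T j j

variable {r : ℕ}

lemma exists_chains (J : Mat r) :
    ∃ (d : ℕ) (l : Fin d → ℂ) (e : Fin d → ℕ) (b : Module.Basis (Σ i, Fin (e i)) ℂ (Fin r → ℂ)),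
      (∀ i (k : Fin (e i)), J *ᵥ b ⟨i, k⟩ = l i • b ⟨i, k⟩ +
        if h : (k : ℕ) + 1 < e i then b ⟨i, ⟨k + 1, h⟩⟩ else 0) ∧
      ∀ N, 0 < N → J ^ N = 1 → ∀ i, e i ≤ 1 := by
  classical
  let f : Module.End ℂ (Fin r → ℂ) := J.toLin'
  obtain ⟨ι, hι, p, hp, e, ⟨ψ⟩⟩ := Module.equiv_directSum_of_isTorsion
    (R := ℂ[X]) (M := Module.AEval' f) (Module.AEval.isTorsion_of_finiteDimensional ℂ _ f)
  have hlin : ∀ i, ∃ l : ℂ, ℂ[X] ∙ p i ^ e i = ℂ[X] ∙ (X - C l) ^ e i := by
    intro i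
    have hd := IsAlgClosed.degree_eq_one_of_irreducible ℂ (hp i)
    obtain ⟨l, hl⟩ := exists_root_of_degree_eq_one hd
    refine ⟨l, Ideal.span_singleton_eq_span_singleton.2 (Associated.pow_pow ?_)⟩
    exact (associated_of_dvd_of_degree_eq (dvd_iff_isRoot.2 hl) (by rw [degree_X_sub_C, hd])).symm
  choose l hl using hlin
  let φ : Module.AEval' f ≃ₗ[ℂ[X]] ⨁ i, JQ (l i) (e i) :=
    ψ.trans (DFinsupp.mapRange.linearEquiv fun i => Submodule.quotEquivOfEq _ _ (hl i))
  let of : (Fin r → ℂ) ≃ₗ[ℂ] Module.AEval' f := Module.AEval'.of f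
  let lof : ∀ i, JQ (l i) (e i) →ₗ[ℂ[X]] ⨁ i, JQ (l i) (e i) := DirectSum.lof ℂ[X] ι _
  let w : ∀ i, ℕ → Module.AEval' f := fun i k => φ.symm (lof i (jmk _ _ ((X - C (l i)) ^ k)))
  let v : (Σ i, Fin (e i)) → Fin r → ℂ := fun q => of.symm (w q.1 q.2)
  have hC : ∀ (c : ℂ) (m : Module.AEval' f), (C c) • m = c • m := fun c m => by
    rw [← Polynomial.algebraMap_eq, algebraMap_smul]
  have hrec : ∀ i k, (X : ℂ[X]) • w i k = l i • w i k + w i (k + 1) := by
    intro i k
    rw [← hC, ← map_smul φ.symm, ← map_smul φ.symm, ← map_add, ← map_smul (lof i),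
      ← map_smul (lof i), ← map_add, ← map_smul, ← map_smul, ← map_add]
    congr 3
    simp only [smul_eq_mul]
    ring
  have hzero : ∀ i k, e i ≤ k → w i k = 0 := by
    intro i k hk
    have : jmk (l i) (e i) ((X - C (l i)) ^ k) = 0 := (jmk_eq_zero _ _).2 (pow_dvd_pow _ hk)
    show φ.symm (lof i (jmk _ _ ((X - C (l i)) ^ k))) = 0
    rw [this, map_zero, map_zero]
  have hsum : ∀ i (a : Fin (e i) → ℂ),
      φ.symm (lof i (jmk _ _ (∑ k : Fin (e i), C (a k) * (X - C (l i)) ^ (k : ℕ)))) =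
        ∑ k : Fin (e i), a k • w i k := by
    intro i a
    simp only [map_sum, ← smul_eq_mul, map_smul, hC, w]
  have hspan : ⊤ ≤ Submodule.span ℂ (Set.range v) := by
    intro x hx
    clear hx
    obtain ⟨y, rfl⟩ := of.symm.surjective x
    obtain ⟨z, rfl⟩ := φ.symm.surjective y
    induction z using DirectSum.induction_on with
    | zero => simp
    | of i q =>
      obtain ⟨a, rfl⟩ := jmk_repr _ _ q
      rw [show (DirectSum.of (fun i => JQ (l i) (e i)) i)
          (jmk _ _ (∑ k : Fin (e i), C (a k) * (X - C (l i)) ^ (k : ℕ))) =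
          lof i (jmk _ _ (∑ k : Fin (e i), C (a k) * (X - C (l i)) ^ (k : ℕ))) from rfl,
        hsum, map_sum]
      refine Submodule.sum_mem _ fun k _ => ?_
      rw [map_smul]
      exact Submodule.smul_mem _ _ (Submodule.subset_span ⟨⟨i, k⟩, rfl⟩)
    | add z z' hz hz' =>
      rw [map_add, map_add]; exact add_mem hz hz'
  have hli : LinearIndependent ℂ v := by
    rw [Fintype.linearIndependent_iff]
    intro c hc q
    rw [Fintype.sum_sigma] at hc
    have h1 : ∀ i, φ.symm (lof i (jmk _ _ (∑ k : Fin (e i),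
        C (c ⟨i, k⟩) * (X - C (l i)) ^ (k : ℕ)))) = of (∑ k : Fin (e i), c ⟨i, k⟩ • v ⟨i, k⟩) := by
      intro i
      rw [hsum, map_sum]
      simp only [map_smul, v, of.apply_symm_apply]
    have h2 : ∑ i, φ.symm (lof i (jmk _ _ (∑ k : Fin (e i),
        C (c ⟨i, k⟩) * (X - C (l i)) ^ (k : ℕ)))) = 0 := by
      rw [Finset.sum_congr rfl fun i _ => h1 i, ← map_sum, hc, map_zero]
    rw [← map_sum, φ.symm.map_eq_zero_iff] at h2
    obtain ⟨i, k⟩ := q
    refine jmk_indep (l i) (e i) (fun k => c ⟨i, k⟩) ?_ k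
    have := congrArg (DirectSum.component ℂ[X] ι _ i) h2
    rw [map_sum, map_zero, Finset.sum_eq_single i] at this
    · rwa [DirectSum.component.lof_self] at this
    · intro b _ hb
      rw [DirectSum.component.of, dif_neg hb]
    · simp
  let b := Module.Basis.mk hli hspan
  let ρ := Fintype.equivFin ι
  refine ⟨Fintype.card ι, fun i => l (ρ.symm i), fun i => e (ρ.symm i),
    b.reindex (Equiv.sigmaCongrLeft (β := fun i => Fin (e i)) ρ.symm).symm, ?_, ?_⟩
  · intro i k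
    have hb : ∀ q : Σ i, Fin (e (ρ.symm i)),
        b.reindex (Equiv.sigmaCongrLeft (β := fun i => Fin (e i)) ρ.symm).symm q =
          v ⟨ρ.symm q.1, q.2⟩ := by
      intro q
      rw [Module.Basis.reindex_apply, Equiv.symm_symm, Module.Basis.mk_apply]
      rfl
    simp only [hb]
    have := congrArg of.symm (hrec (ρ.symm i) k)
    have hJ : ∀ m : Module.AEval' f, of.symm ((X : ℂ[X]) • m) = J *ᵥ of.symm m := by
      intro m
      obtain ⟨x, rfl⟩ := of.surjective m
      rw [Module.AEval'.X_smul_of, of.symm_apply_apply, of.symm_apply_apply]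
      exact Matrix.toLin'_apply J x
    rw [hJ, map_add, map_smul] at this
    simp only [v]
    rw [this]
    congr 1
    split_ifs with h
    · rfl
    · rw [hzero _ _ (not_lt.1 h), map_zero]
  · intro N hN hJN i
    by_contra hlt
    simp only at hlt
    have hkill : ∀ z : ⨁ i, JQ (l i) (e i), (X ^ N - 1 : ℂ[X]) • z = 0 := by
      intro z
      obtain ⟨m, rfl⟩ := φ.surjective z
      obtain ⟨x, rfl⟩ := of.surjective m
      rw [← map_smul]
      have : (X ^ N - 1 : ℂ[X]) • of x = of (0 : Fin r → ℂ) := by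
        rw [show (X ^ N - 1 : ℂ[X]) • of x = of (aeval f (X ^ N - 1 : ℂ[X]) x) from
          Module.AEval.of_aeval_smul _ _ _ |>.symm]
        congr 1
        have hf : f ^ N = 1 := by
          rw [← Matrix.toLin'_pow, hJN, Matrix.toLin'_one]; rfl
        simp [hf]
      rw [this, map_zero, map_zero]
    have h0 := congrArg (DirectSum.component ℂ[X] ι _ (ρ.symm i))
      (hkill (lof (ρ.symm i) (jmk _ _ 1)))
    rw [map_smul, DirectSum.component.lof_self, map_zero, ← map_smul, jmk_eq_zero, smul_eq_mul,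
      mul_one] at h0
    have hsq : Squarefree (X ^ N - 1 : ℂ[X]) := by
      simpa using (separable_X_pow_sub_C (n := N) (1 : ℂ) (by exact_mod_cast hN.ne')
        one_ne_zero).squarefree
    have := hsq (X - C (l (ρ.symm i)))
      ((by rw [pow_two] : (X - C (l (ρ.symm i))) * (X - C (l (ρ.symm i))) =
        (X - C (l (ρ.symm i))) ^ 2) ▸ (pow_dvd_pow _ (by omega)).trans h0)
    exact not_isUnit_X_sub_C _ this

/-- Every element of `SL_r` is conjugate in `SL_r` to a Jordan matrix. -/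
theorem exists_jordan (J : Mat r) :
    ∃ S T : Mat r, S.det = 1 ∧ J = S * T * S.adjugate ∧ Jordan T ∧
      ∀ N, 0 < N → J ^ N = 1 → ∀ i j, i ≠ j → T i j = 0 := by
  classical
  obtain ⟨d, l, e, b, hb, hss⟩ := exists_chains J
  let ν : (Σ i, Fin (e i)) ≃ Fin (∑ i, e i) := finSigmaFinEquiv
  have hcard : ∑ i, e i = r := by
    have := Module.finrank_eq_card_basis b
    simp at this
    omega
  let μ : (Σ i, Fin (e i)) ≃ Fin r := (ν.trans (finCongr hcard)).trans Fin.revPerm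
  let P : Mat r := Matrix.of fun a n => b (μ.symm n) a
  let T0 : (Σ i, Fin (e i)) → (Σ i, Fin (e i)) → ℂ := fun q q' =>
    if q = q' then l q'.1
    else if h : (q'.2 : ℕ) + 1 < e q'.1 then
      if q = ⟨q'.1, ⟨q'.2 + 1, h⟩⟩ then 1 else 0
    else 0
  let T : Mat r := Matrix.of fun m n => T0 (μ.symm m) (μ.symm n)
  have hPdet : P.det ≠ 0 := by
    have h := (b.reindex μ).linearIndependent
    have e0 : (fun n => b.reindex μ n) = P.col := by
      funext n a; simp [P, Matrix.col]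
    rw [← isUnit_iff_ne_zero, ← Matrix.isUnit_iff_isUnit_det,
      ← Matrix.linearIndependent_cols_iff_isUnit, ← e0]
    exact h
  have hsucc : ∀ i (k : Fin (e i)) (h : (k : ℕ) + 1 < e i),
      (μ ⟨i, ⟨k + 1, h⟩⟩ : ℕ) + 1 = μ ⟨i, k⟩ := by
    intro i k h
    have h1 := finSigmaFinEquiv_apply (n := e) ⟨i, ⟨k + 1, h⟩⟩
    have h2 := finSigmaFinEquiv_apply (n := e) ⟨i, k⟩
    have h3 := (finSigmaFinEquiv (n := e) ⟨i, ⟨k + 1, h⟩⟩).isLt
    simp only [μ, ν, Equiv.trans_apply, finCongr_apply, Fin.revPerm_apply, Fin.val_rev,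
      Fin.val_cast]
    rw [h1] at h3 ⊢
    rw [h2]
    simp only at h3 ⊢
    omega
  have hJT : J * P = P * T := by
    ext a n
    obtain ⟨⟨i, k⟩, rfl⟩ := μ.surjective n
    have lhs : (J * P) a (μ ⟨i, k⟩) = (J *ᵥ b ⟨i, k⟩) a := by
      simp [P, Matrix.mul_apply, mulVec, dotProduct]
    rw [lhs, hb, Matrix.mul_apply, ← μ.sum_comp]
    simp only [P, T, Matrix.of_apply, Equiv.symm_apply_apply, Pi.add_apply, Pi.smul_apply,
      smul_eq_mul]
    by_cases h : (k : ℕ) + 1 < e i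
    · have hne : (⟨i, ⟨k + 1, h⟩⟩ : Σ i, Fin (e i)) ≠ ⟨i, k⟩ := fun e' => by
        have := hsucc i k h; rw [e'] at this; omega
      have hT : ∀ q, T0 q ⟨i, k⟩ = if q = ⟨i, k⟩ then l i else
          if q = ⟨i, ⟨k + 1, h⟩⟩ then 1 else 0 := fun q => by simp only [T0, dif_pos h]
      simp only [h, dite_true, hT]
      rw [Finset.sum_eq_add_of_mem ⟨i, k⟩ ⟨i, ⟨k + 1, h⟩⟩ (Finset.mem_univ _)
        (Finset.mem_univ _) hne.symm]
      · rw [if_pos rfl, if_neg hne, if_pos rfl]; ring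
      · intro c _ hc; rw [if_neg hc.1, if_neg hc.2, mul_zero]
    · have hT : ∀ q, T0 q ⟨i, k⟩ = if q = ⟨i, k⟩ then l i else 0 := fun q => by
        simp only [T0, dif_neg h]
      simp only [h, dite_false, hT, mul_ite, mul_zero, Finset.sum_ite_eq', Finset.mem_univ, if_true]
      simp [mul_comm]
  have hr : r ≠ 0 ∨ r = 0 := (em (r = 0)).symm
  obtain ⟨c, hc⟩ : ∃ c : ℂ, c ^ r * P.det = 1 := by
    rcases hr with hr | hr
    · obtain ⟨c, hc⟩ := IsAlgClosed.exists_pow_nat_eq P.det⁻¹ (Nat.pos_of_ne_zero hr)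
      exact ⟨c, by rw [hc, inv_mul_cancel₀ hPdet]⟩
    · subst hr; exact ⟨1, by simp⟩
  have hS : (c • P).det = 1 := by rw [det_smul, Fintype.card_fin, hc]
  refine ⟨c • P, T, hS, ?_, ?_, ?_⟩
  · calc J = J * ((c • P) * (c • P).adjugate) := by rw [mul_adjugate, hS, one_smul, mul_one]
      _ = c • P * T * (c • P).adjugate := by
        simp only [← mul_assoc, mul_smul_comm, hJT, smul_mul_assoc]
  · intro m n hmn hT
    obtain ⟨q, rfl⟩ := μ.surjective m
    obtain ⟨⟨i, k⟩, rfl⟩ := μ.surjective n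
    have hq : q ≠ ⟨i, k⟩ := fun e' => hmn (congrArg μ e')
    simp only [T, Matrix.of_apply, Equiv.symm_apply_apply, ne_eq] at hT ⊢
    by_cases h : (k : ℕ) + 1 < e i
    · have hq' : q = ⟨i, ⟨k + 1, h⟩⟩ := by
        by_contra hne; exact hT (by simp only [T0, if_neg hq, dif_pos h, if_neg hne])
      subst hq'
      exact ⟨hsucc i k h, by simp only [T0, if_neg hq, dif_pos h, if_true], by simp [T0]⟩
    · exact absurd (by simp only [T0, if_neg hq, dif_neg h]) hT
  · intro N hN hJN m n hmn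
    obtain ⟨q, rfl⟩ := μ.surjective m
    obtain ⟨⟨i, k⟩, rfl⟩ := μ.surjective n
    have hq : q ≠ ⟨i, k⟩ := fun e' => hmn (congrArg μ e')
    have := hss N hN hJN i
    have hk : ¬ ((k : ℕ) + 1 < e i) := by omega
    show T0 (μ.symm (μ q)) (μ.symm (μ ⟨i, k⟩)) = 0
    rw [Equiv.symm_apply_apply, Equiv.symm_apply_apply]
    simp only [T0, if_neg hq, dif_neg hk]

end Vale.Agent.P002.General
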