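import Vale.Agent.P002.General.Jordan
import Vale.Agent.P002.Twisted.Basic
import Vale.Agent.P002.Surface.Flow

/-! Triangular matrices as commutators; diagonalisation. -/

open Matrix

namespace Vale.Agent.P002.General

open Vale.Agent.P002.Surface (Mat comm mul_adj adj_mul det_adj Generic exists_generic)
open Vale.Agent.P002.Twisted (IntMat)

variable {r : ℕ} {R : Subring ℂ}

/-- Strictly upper triangular. -/
def Strict (N : Mat r) : Prop := ∀ i j, j ≤ i → N i j = 0

lemma solve_strict {N : Mat r} (hN : Strict N) (c : Fin r → Fin r → ℂ)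
    (hc : ∀ i j, i < j → c i j ≠ 0) :
    ∃ Z : Mat r, Strict Z ∧ (∀ i j, i < j → c i j * Z i j = N i j + (N * Z) i j) ∧
      (IntMat R N → (∀ i j, i < j → (c i j)⁻¹ ∈ R) → IntMat R Z) := by
  let F : Mat r → Mat r := fun Z =>
    Matrix.of fun i j => if i < j then (c i j)⁻¹ * (N i j + (N * Z) i j) else 0
  let Z : ℕ → Mat r := fun n => F^[n] 0
  have hZ : ∀ n, Z (n + 1) = F (Z n) := fun n => Function.iterate_succ_apply' F n 0
  have hstab : ∀ n (i j : Fin r), (j : ℕ) ≤ i + n → Z (n + 1) i j = Z n i j := by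
    intro n
    induction n with
    | zero =>
      intro i j hij
      show F 0 i j = (0 : Mat r) i j
      have : ¬ i < j := by rw [Fin.lt_def]; omega
      simp [F, this]
    | succ n ih =>
      intro i j hij
      rw [hZ (n + 1)]
      conv_rhs => rw [hZ n]
      simp only [F, Matrix.of_apply]
      split_ifs with h
      · congr 2
        simp only [Matrix.mul_apply]
        refine Finset.sum_congr rfl fun k _ => ?_
        by_cases hk : k ≤ i
        · simp [hN i k hk]
        · rw [ih k j (by have := Fin.not_le.1 hk; rw [Fin.lt_def] at this; omega)]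
      · rfl
  refine ⟨Z r, ?_, ?_, ?_⟩
  · intro i j hij
    rw [← hstab r i j (by rw [Fin.le_def] at hij; omega), hZ]
    simp [F, not_lt.2 hij]
  · intro i j hij
    conv_lhs => rw [← hstab r i j (by omega), hZ]
    simp only [F, Matrix.of_apply, if_pos hij]
    rw [mul_inv_cancel_left₀ (hc i j hij)]
  · intro hN' hc'
    suffices ∀ n, IntMat R (Z n) from this r
    intro n
    induction n with
    | zero => intro i j; exact R.zero_mem
    | succ n ih =>
      rw [hZ]
      intro i j
      simp only [F, Matrix.of_apply]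
      split_ifs with h
      · exact R.mul_mem (hc' i j h) (R.add_mem (hN' i j) (hN'.mul ih i j))
      · exact R.zero_mem

lemma det_one_add_strict {Z : Mat r} (hZ : Strict Z) : (1 + Z).det = 1 := by
  rw [det_of_isUpperTriangular]
  · exact Finset.prod_eq_one fun i _ => by simp [hZ i i le_rfl]
  · intro i j hij
    have hij' : j < i := hij
    simp [Matrix.one_apply_ne hij'.ne', hZ i j hij'.le]

lemma adj_eq_of_mul_eq_one {a b : Mat r} (ha : a.det = 1) (h : a * b = 1) : a.adjugate = b :=
  left_inv_eq_right_inv (adj_mul ha) h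

lemma strict_eq {A B : Mat r} (h1 : ∀ i j, j ≤ i → A i j = B i j)
    (h2 : ∀ i j, i < j → A i j = B i j) : A = B := by
  ext i j
  rcases le_or_gt j i with h | h
  exacts [h1 i j h, h2 i j h]

lemma strict_mul {A B : Mat r} (hA : Strict A) (hB : Strict B) : Strict (A * B) := by
  intro i j hij
  rw [Matrix.mul_apply]
  refine Finset.sum_eq_zero fun k _ => ?_
  rcases le_or_gt k i with h | h
  · rw [hA i k h, zero_mul]
  · rw [hB k j (hij.trans h.le), mul_zero]

/-- An upper triangular matrix with distinct diagonal entries is diagonalisable. -/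
lemma diagonalise {T : Mat r} (hT : T.BlockTriangular id) (hinj : ∀ i j, T i i = T j j → i = j) :
    ∃ X : Mat r, X.det = 1 ∧ T = X * diagonal (fun i => T i i) * X.adjugate ∧
      X.BlockTriangular id ∧ (∀ i, X i i = 1) ∧
      (IntMat R T → (∀ i j, i < j → (T j j - T i i)⁻¹ ∈ R) → IntMat R X) := by
  let N : Mat r := T - diagonal fun i => T i i
  have hN : Strict N := by
    intro i j hij
    rcases hij.lt_or_eq with h | h
    · simp [N, hT h, Matrix.diagonal_apply_ne _ h.ne']
    · simp [N, h]
  obtain ⟨Z, hZ, hZe, hZi⟩ := solve_strict (R := R) hN (fun i j => T j j - T i i)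
    fun i j hij => sub_ne_zero.2 fun e => hij.ne' (hinj _ _ e)
  refine ⟨1 + Z, det_one_add_strict hZ, ?_, fun i j hij => by
      have hij' : j < i := hij
      simp [Matrix.one_apply_ne hij'.ne', hZ i j hij'.le],
    fun i => by simp [hZ i i le_rfl], fun hTR hd i j => R.add_mem (IntMat.one i j)
    (hZi (fun a b => ?_) hd i j)⟩
  swap
  · simp only [N, Matrix.sub_apply, diagonal_apply]
    split_ifs
    · exact R.sub_mem (hTR a b) (hTR a a)
    · simpa using hTR a b
  have hNZ := strict_mul hN hZ
  have key : T * (1 + Z) = (1 + Z) * diagonal fun i => T i i := by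
    have e : T = diagonal (fun i => T i i) + N := by simp [N]
    conv_lhs => rw [e]
    refine strict_eq (fun i j hij => ?_) fun i j hij => ?_
    · simp only [mul_add, add_mul, mul_one, Matrix.add_apply, Matrix.diagonal_mul,
        Matrix.mul_diagonal, hN i j hij, hZ i j hij, hNZ i j hij]
      rcases hij.lt_or_eq with h' | h'
      · simp [Matrix.one_apply_ne h'.ne', Matrix.diagonal_apply_ne _ h'.ne', hZ i j h'.le]
      · subst h'; simp [hZ _ _ le_rfl]
    · simp only [mul_add, add_mul, mul_one, one_mul, Matrix.add_apply, Matrix.diagonal_mul,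
        Matrix.mul_diagonal, Matrix.diagonal_apply_ne _ hij.ne, Matrix.one_apply_ne hij.ne, zero_mul, mul_zero, zero_add]
      linear_combination -(hZe i j hij)
  calc T = T * ((1 + Z) * (1 + Z).adjugate) := by rw [mul_adj (det_one_add_strict hZ), mul_one]
    _ = _ := by rw [← mul_assoc, key]

lemma isIntegral_root {x : ℂ} {n : ℕ} (hn : 0 < n) (hx : x ^ n = 1) : IsIntegral ℤ x :=
  IsIntegral.of_pow hn (by rw [hx]; exact isIntegral_one)

/-- The roots of unity. -/
def μs : Submonoid ℂ where
  carrier := {z | IsOfFinOrder z}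
  one_mem' := IsOfFinOrder.one
  mul_mem' ha hb := (Commute.all _ _).isOfFinOrder_mul ha hb

lemma mem_μs {z : ℂ} : z ∈ μs ↔ ∃ N > 0, z ^ N = 1 := isOfFinOrder_iff_pow_eq_one

lemma μs_ne_zero {z : ℂ} (h : z ∈ μs) : z ≠ 0 := by
  obtain ⟨N, hN, h⟩ := mem_μs.1 h
  rintro rfl
  simp [zero_pow hN.ne'] at h

lemma μs_infinite : (μs : Set ℂ).Infinite := by
  refine Set.infinite_of_injective_forall_mem
    (f := fun n : ℕ => Complex.exp (2 * Real.pi * Complex.I / (n + 1 : ℕ))) ?_ fun n => ?_
  · intro a b h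
    have ha := Complex.isPrimitiveRoot_exp (a + 1) (Nat.succ_ne_zero a)
    have hb := Complex.isPrimitiveRoot_exp (b + 1) (Nat.succ_ne_zero b)
    rw [show Complex.exp (2 * Real.pi * Complex.I / (a + 1 : ℕ)) =
      Complex.exp (2 * Real.pi * Complex.I / (b + 1 : ℕ)) from h] at ha
    exact Nat.succ_injective (ha.unique hb)
  · exact mem_μs.2 ⟨n + 1, n.succ_pos,
      (Complex.isPrimitiveRoot_exp (n + 1) n.succ_ne_zero).pow_eq_one⟩

/-- Roots of unity of product one on an interval, none of whose proper subsets has product one,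
are the successive ratios of distinct roots of unity. -/
lemma exists_chain {m : ℕ} {δ : Fin (m + 1) → ℂ} (hδ : ∀ i, δ i ∈ μs) (hprod : ∏ i, δ i = 1)
    (hmin : ∀ A : Finset (Fin (m + 1)), A.Nonempty → A ≠ Finset.univ → ∏ i ∈ A, δ i ≠ 1) :
    ∃ d : Fin (m + 1) → ℂ, Function.Injective d ∧ (∀ i, d i ∈ μs) ∧
      ∀ i, d (finRotate (m + 1) i) = δ i * d i := by
  let d : Fin (m + 1) → ℂ := fun i => ∏ l ∈ Finset.Iio i, δ l
  have hd : ∀ i, d i ∈ μs := fun i => prod_mem fun l _ => hδ l
  refine ⟨d, fun i j hij => ?_, hd, fun i => ?_⟩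
  · by_contra hne
    wlog hlt : i < j generalizing i j
    · exact this j i hij.symm (Ne.symm hne) ((lt_or_gt_of_ne hne).resolve_left hlt)
    have hsub : Finset.Iio i ⊆ Finset.Iio j := Finset.Iio_subset_Iio hlt.le
    refine hmin (Finset.Iio j \ Finset.Iio i) ⟨i, by simp [hlt]⟩ ?_ ?_
    · intro h
      have := h.symm ▸ Finset.mem_univ j
      simp at this
    · have h : (∏ l ∈ Finset.Iio j \ Finset.Iio i, δ l) * d i = d j := Finset.prod_sdiff hsub
      rw [hij] at h
      exact (mul_eq_right₀ (μs_ne_zero (hd j))).1 h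
  · refine Fin.lastCases ?_ (fun k => ?_) i
    · rw [finRotate_last]
      have hu : Finset.univ = insert (Fin.last m) (Finset.Iio (Fin.last m)) := by
        ext x
        simp only [Finset.mem_univ, Finset.mem_insert, Finset.mem_Iio, true_iff]
        exact (Fin.le_last x).eq_or_lt
      rw [hu, Finset.prod_insert (by simp)] at hprod
      show ∏ l ∈ Finset.Iio (0 : Fin (m + 1)), δ l = _
      rw [show Finset.Iio (0 : Fin (m + 1)) = ∅ by ext; simp, Finset.prod_empty]
      exact hprod.symm
    · have e : finRotate (m + 1) k.castSucc = k.succ := by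
        rw [finRotate_apply]; exact Fin.coeSucc_eq_succ.symm ▸ rfl
      rw [e]
      have hu : Finset.Iio k.succ = insert k.castSucc (Finset.Iio k.castSucc) := by
        ext x
        simp only [Finset.mem_Iio, Finset.mem_insert, Fin.lt_def, Fin.ext_iff, Fin.val_succ,
          Fin.val_castSucc]
        omega
      show ∏ l ∈ Finset.Iio k.succ, δ l = _
      rw [hu, Finset.prod_insert (by simp)]

/-- Roots of unity of product one are ratios of distinct roots of unity along a permutation: split
into parts of product one with no proper subpart of product one, one cycle for each. -/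
lemma exists_cycles {ι : Type*} [DecidableEq ι] {δ : ι → ℂ} (s : Finset ι)
    (hδ : ∀ i ∈ s, δ i ∈ μs) (hprod : ∏ i ∈ s, δ i = 1) :
    ∃ (σ : Equiv.Perm s) (d : s → ℂ), Function.Injective d ∧ (∀ i, d i ∈ μs) ∧
      ∀ i : s, d (σ i) = δ i * d i := by
  induction s using Finset.strongInduction with
  | _ s ih =>
  rcases s.eq_empty_or_nonempty with rfl | hne
  · exact ⟨1, fun _ => 1, fun i => isEmptyElim i, fun i => isEmptyElim i, fun i => isEmptyElim i⟩
  by_cases hsplit : ∃ A ⊆ s, A.Nonempty ∧ A ≠ s ∧ ∏ i ∈ A, δ i = 1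
  · obtain ⟨A, hAs, hA, hAne, hA1⟩ := hsplit
    have hB1 : ∏ i ∈ s \ A, δ i = 1 := by
      have := Finset.prod_sdiff (f := δ) hAs
      rwa [hA1, mul_one, hprod] at this
    obtain ⟨σ₁, d₁, hi₁, hm₁, hs₁⟩ := ih A (Finset.ssubset_iff_subset_ne.2 ⟨hAs, hAne⟩)
      (fun i hi => hδ i (hAs hi)) hA1
    obtain ⟨σ₂, d₂, hi₂, hm₂, hs₂⟩ := ih (s \ A) (Finset.sdiff_ssubset hAs hA)
      (fun i hi => hδ i (Finset.sdiff_subset hi)) hB1
    -- a root of unity separating the two images
    obtain ⟨t, ht, htn⟩ := μs_infinite.exists_notMem_finset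
      (Finset.univ.image fun q : A × (s \ A : Finset ι) => d₁ q.1 / d₂ q.2)
    let e : A ⊕ (s \ A : Finset ι) ≃ s :=
      (Equiv.Finset.union A (s \ A) Finset.disjoint_sdiff).trans
        (Equiv.setCongr (s := ((A ∪ (s \ A) : Finset ι) : Set ι)) (t := (s : Set ι))
          (by rw [Finset.union_sdiff_of_subset hAs]))
    have hel : ∀ i, (e (Sum.inl i) : ι) = i := fun i => rfl
    have her : ∀ i, (e (Sum.inr i) : ι) = i := fun i => rfl
    let d : A ⊕ (s \ A : Finset ι) → ℂ := Sum.elim d₁ fun i => t * d₂ i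
    have hdi : Function.Injective d := by
      refine hi₁.sumElim (fun i j h => hi₂ (mul_left_cancel₀ (μs_ne_zero ht) h)) fun a b h => ?_
      refine htn (Finset.mem_image.2 ⟨(a, b), Finset.mem_univ _, ?_⟩)
      rw [h, mul_div_cancel_right₀ _ (μs_ne_zero (hm₂ b))]
    refine ⟨e.permCongr (Equiv.sumCongr σ₁ σ₂), d ∘ e.symm, hdi.comp e.symm.injective,
      fun i => ?_, fun i => ?_⟩
    · show d (e.symm i) ∈ μs
      rcases e.symm i with j | j
      exacts [hm₁ j, μs.mul_mem ht (hm₂ j)]
    · obtain ⟨j, rfl⟩ := e.surjective i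
      simp only [Function.comp_apply, Equiv.permCongr_apply, Equiv.symm_apply_apply]
      rcases j with j | j
      · simp [d, hs₁, hel]
      · simp [d, hs₂, her]; ring
  · obtain ⟨m, hm⟩ : ∃ m, s.card = m + 1 := ⟨s.card - 1, by have := hne.card_pos; omega⟩
    let e : Fin (m + 1) ≃ s := (s.equivFinOfCardEq hm).symm
    have hmap : ∀ A : Finset (Fin (m + 1)),
        ∏ i ∈ A, δ (e i) = ∏ x ∈ A.map (e.toEmbedding.trans (Function.Embedding.subtype _)), δ x :=
      fun A => by rw [Finset.prod_map]; rfl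
    obtain ⟨d, hdi, hdm, hds⟩ := exists_chain (δ := fun i => δ (e i)) (fun i => hδ _ (e i).2)
      (by rw [e.prod_comp (fun x : s => δ x), Finset.prod_coe_sort, hprod])
      (fun A hA hAu h => hsplit ⟨_, fun x hx => by
          obtain ⟨i, -, rfl⟩ := Finset.mem_map.1 hx; exact (e i).2, hA.map, fun he => hAu
          (Finset.eq_univ_of_card A (by simpa [Finset.card_map, hm] using congrArg Finset.card he)),
        (hmap A).symm.trans h⟩)
    refine ⟨e.permCongr (finRotate (m + 1)), d ∘ e.symm, hdi.comp e.symm.injective,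
      fun i => hdm _, fun i => ?_⟩
    obtain ⟨j, rfl⟩ := e.surjective i
    simp only [Function.comp_apply, Equiv.permCongr_apply, Equiv.symm_apply_apply]
    exact hds j

/-- An integral matrix of determinant one permuting the diagonal. -/
lemma exists_monomial (hr : 0 < r) (σ : Equiv.Perm (Fin r)) :
    ∃ S : Mat r, S.det = 1 ∧ (∀ i j, IsIntegral ℤ (S i j)) ∧
      ∀ h : Fin r → ℂ, S * diagonal h * S.adjugate = diagonal fun i => h (σ i) := by
  let S0 : Mat r := σ.permMatrix ℂ
  have hS0 : S0.det = (Equiv.Perm.sign σ : ℤ) := by simp [S0, Matrix.det_permutation]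
  obtain ⟨u, hu⟩ := IsAlgClosed.exists_pow_nat_eq S0.det⁻¹ hr
  have hsgn : S0.det ^ 2 = 1 := by
    rw [hS0]; rcases Int.units_eq_one_or (Equiv.Perm.sign σ) with e | e <;> simp [e]
  have hu0 : S0.det ≠ 0 := fun e => by simp [e] at hsgn
  have hui : IsIntegral ℤ u := isIntegral_root (Nat.mul_pos hr two_pos) (by
    rw [pow_mul, hu, inv_pow, hsgn, inv_one])
  have hSdet : (u • S0).det = 1 := by
    rw [det_smul, Fintype.card_fin, hu, inv_mul_cancel₀ hu0]
  refine ⟨u • S0, hSdet, fun i j => ?_, fun h => ?_⟩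
  · simp only [Matrix.smul_apply, smul_eq_mul, S0, Equiv.Perm.permMatrix, PEquiv.toMatrix_apply]
    split_ifs
    · simpa using hui
    · simpa using isIntegral_zero
  · have hkey : u • S0 * diagonal h = diagonal (fun i => h (σ i)) * (u • S0) := by
      ext i j
      simp only [Matrix.mul_diagonal, Matrix.diagonal_mul, Matrix.smul_apply, smul_eq_mul, S0,
        PEquiv.toMatrix_apply, Equiv.toPEquiv_apply, Option.mem_some_iff, Equiv.Perm.permMatrix]
      split_ifs with e
      · subst e; ring
      · simp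
    rw [hkey, mul_assoc, mul_adj hSdet, mul_one]

/-- A triangular algebraic matrix `P` with roots of unity on the diagonal satisfies
`P = [X S, h]` with `h` diagonal with distinct entries, `S` monomial and integral, `X` unitriangular and algebraic. -/
lemma exists_triangular_comm (hr : 0 < r) {P : Mat r} (hP : P.BlockTriangular id)
    (hdet : P.det = 1) (hroot : ∀ i, P i i ∈ μs)
    (hint : IntMat (algebraicClosure ℚ ℂ).toSubring P) :
    ∃ (h : Fin r → ℂ) (S X : Mat r), Function.Injective h ∧ (∀ i, IsIntegral ℤ (h i)) ∧ ∏ i, h i = 1 ∧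
      S.det = 1 ∧ (∀ i j, IsIntegral ℤ (S i j)) ∧
      X.det = 1 ∧ X.BlockTriangular id ∧ (∀ i, X i i = 1) ∧
      IntMat (algebraicClosure ℚ ℂ).toSubring X ∧
      ∃ k : Fin r → ℂ, S * diagonal h * S.adjugate = diagonal k ∧
        P * diagonal h = X * diagonal k * X.adjugate := by
  obtain ⟨σ, d, hdi, hdm, hds⟩ := exists_cycles (δ := fun i => P i i) Finset.univ
    (fun i _ => hroot i) (by rw [← det_of_isUpperTriangular hP, hdet])
  let e : (Finset.univ : Finset (Fin r)) ≃ Fin r := Equiv.subtypeUnivEquiv Finset.mem_univ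
  obtain ⟨c, hc⟩ := IsAlgClosed.exists_pow_nat_eq (∏ i, d i)⁻¹ hr
  have hdP : (∏ i, d i) ∈ μs := prod_mem fun i _ => hdm i
  have hcm : c ∈ μs := by
    obtain ⟨N, hN, hdN⟩ := mem_μs.1 hdP
    exact mem_μs.2 ⟨r * N, Nat.mul_pos hr hN, by rw [pow_mul, hc, inv_pow, hdN, inv_one]⟩
  let h : Fin r → ℂ := fun i => c * d (e.symm i)
  let τ : Equiv.Perm (Fin r) := e.permCongr σ
  have hhm : ∀ i, h i ∈ μs := fun i => μs.mul_mem hcm (hdm _)
  have hhi : ∀ i, IsIntegral ℤ (h i) := fun i => by
    obtain ⟨N, hN, hh⟩ := mem_μs.1 (hhm i); exact isIntegral_root hN hh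
  have hprod : ∏ i, h i = 1 := by
    rw [Finset.prod_mul_distrib, Finset.prod_const, Finset.card_univ, Fintype.card_fin, hc,
      e.symm.prod_comp d, inv_mul_cancel₀ (μs_ne_zero hdP)]
  have hτ : ∀ i, h (τ i) = P i i * h i := fun i => by
    obtain ⟨j, rfl⟩ := e.surjective i
    simp only [h, τ, Equiv.permCongr_apply, Equiv.symm_apply_apply, hds]
    rw [show e j = (j : Fin r) from rfl]; ring
  have hinj : Function.Injective fun i => P i i * h i := by
    intro i j hij
    exact τ.injective (e.symm.injective (hdi (mul_left_cancel₀ (μs_ne_zero hcm)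
      ((hτ i).trans (hij.trans (hτ j).symm)))))
  have hT : (P * diagonal h).BlockTriangular id := hP.mul (blockTriangular_diagonal h)
  obtain ⟨X, hX, hXe, hXt, hX1, hXi⟩ := diagonalise (R := (algebraicClosure ℚ ℂ).toSubring) hT
    fun i j hij => hinj (by simpa [Matrix.mul_diagonal] using hij)
  obtain ⟨S, hS, hSi, hSh⟩ := exists_monomial hr τ
  have hhQ : ∀ i, h i ∈ algebraicClosure ℚ ℂ := fun i =>
    mem_algebraicClosure_iff.2 ((hhi i).tower_top.isAlgebraic)
  have hXint : IntMat (algebraicClosure ℚ ℂ).toSubring X := hXi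
    (fun i j => by
      rw [Matrix.mul_diagonal]; exact Subring.mul_mem _ (hint i j) (hhQ j))
    fun i j _ => by
      simp only [Matrix.mul_diagonal]
      exact (algebraicClosure ℚ ℂ).inv_mem
        ((algebraicClosure ℚ ℂ).sub_mem (mul_mem (hint j j) (hhQ j)) (mul_mem (hint i i) (hhQ i)))
  refine ⟨h, S, X, fun i j hij => e.symm.injective (hdi (mul_left_cancel₀ (μs_ne_zero hcm) hij)),
    hhi, hprod, hS, hSi, hX, hXt, hX1, hXint, fun i => h (τ i), hSh h, ?_⟩
  have hd : (fun i => (P * diagonal h) i i) = fun i => h (τ i) :=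
    funext fun i => by rw [Matrix.mul_diagonal, hτ]
  rw [← hd]; exact hXe

/-- A power of some element of `SL_r` times a given one has generic spectrum. -/
lemma exists_pow_mul_generic {X0 : Mat r} (hX : X0.det = 1) {e : ℕ} (he : 0 < e) :
    ∃ (lam : Fin r → ℂ) (a S : Mat r), Generic lam ∧ (∀ i j, lam i = lam j → i = j) ∧
      a.det = 1 ∧ S.det = 1 ∧ a ^ e * X0 = S * diagonal lam * S.adjugate := by
  rcases Nat.eq_zero_or_pos r with h0 | h0
  · subst h0
    exact ⟨fun i => i.elim0, 1, 1, ⟨fun i => i.elim0, by simp, fun e _ i => i.elim0⟩,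
      fun i => i.elim0, det_one, det_one, by ext i; exact i.elim0⟩
  obtain ⟨lam, hl, hinj⟩ := exists_generic r
  obtain ⟨S, T, hS, hX0, hJ, -⟩ := exists_jordan X0
  have hT : T.BlockTriangular id := by
    intro i j hij
    by_contra hne
    have hij' : j < i := hij
    have := (hJ i j hij'.ne' hne).1
    rw [Fin.lt_def] at hij'; omega
  have hTd : ∏ i, T i i = 1 := by
    rw [← det_of_isUpperTriangular hT]
    rw [hX0, det_mul, det_mul, det_adj hS, hS] at hX
    simpa using hX
  choose ν0 hν0 using fun i => IsAlgClosed.exists_pow_nat_eq (lam i / T i i) he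
  set P := ∏ i, ν0 i
  have hPe : P ^ e = 1 := by
    simp only [P, ← Finset.prod_pow, hν0, Finset.prod_div_distrib, hl.2.1, hTd, div_one]
  have hP0 : P ≠ 0 := fun e' => by simp [e', zero_pow he.ne'] at hPe
  let i0 : Fin r := ⟨0, h0⟩
  let ν : Fin r → ℂ := fun i => ν0 i * if i = i0 then P⁻¹ else 1
  have hν : ∏ i, ν i = 1 := by
    simp only [ν, Finset.prod_mul_distrib, Finset.prod_ite_eq', Finset.mem_univ, if_true]
    exact mul_inv_cancel₀ hP0
  have hνe : ∀ i, ν i ^ e * T i i = lam i := by
    intro i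
    have hi : T i i ≠ 0 := Finset.prod_ne_zero_iff.1
      (show ∏ i, T i i ≠ 0 by rw [hTd]; exact one_ne_zero) i
      (Finset.mem_univ i)
    simp only [ν, mul_pow, hν0]
    split_ifs <;> simp [inv_pow, hPe, div_mul_cancel₀ _ hi]
  let G : Mat r := diagonal (fun i => ν i ^ e) * T
  have hG : G.BlockTriangular id := fun i j hij => by simp [G, Matrix.diagonal_mul, hT hij]
  have hGd : (fun i => G i i) = lam := funext fun i => by simp [G, Matrix.diagonal_mul, hνe]
  obtain ⟨X, hXd, hGX, -⟩ := diagonalise (R := (⊥ : Subring ℂ)) hG fun i j h => hinj i j (by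
    rwa [congrFun hGd i, congrFun hGd j] at h)
  refine ⟨lam, S * diagonal ν * S.adjugate, S * X, hl, hinj,
    by rw [det_mul, det_mul, hS, det_diagonal, hν, det_adj hS]; simp,
    by rw [det_mul, hS, hXd, one_mul], ?_⟩
  have hpow : ∀ n, (S * diagonal ν * S.adjugate) ^ n = S * diagonal ν ^ n * S.adjugate := by
    intro n
    induction n with
    | zero => simp [mul_adj hS]
    | succ n ih =>
      rw [pow_succ, ih, pow_succ]
      simp only [mul_assoc]
      rw [← mul_assoc S.adjugate S, adj_mul hS, one_mul]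
  have e1 : G = X * diagonal lam * X.adjugate := by rw [← hGd]; exact hGX
  calc _ = S * (diagonal (fun i => ν i ^ e) * T) * S.adjugate := by
        rw [hpow, hX0, diagonal_pow]
        simp only [mul_assoc]
        rw [← mul_assoc S.adjugate S, adj_mul hS, one_mul]
        rfl
    _ = S * X * diagonal lam * (S * X).adjugate := by
        rw [show diagonal (fun i => ν i ^ e) * T = G from rfl, e1, adjugate_mul_distrib]
        simp only [mul_assoc]

end Vale.Agent.P002.General
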