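import Vale.Agent.P002.General.Space
import Vale.Agent.P002.General.Solve

/-! Slides of the two mirrored handles over the slots of the tail, and their flows. -/

open Matrix Filter Topology NormedSpace

namespace Vale.Agent.P002.General

open Vale.Agent.P002.Surface (Mat Tup comm rel PF PMap mul_adj adj_mul det_adj comm_twist_left
  comm_twist_right tlPow Generic torus_vanish contDiff_mexp exists_curve)
open Vale.Agent.P002.Twisted (IntMat)

attribute [local instance] Matrix.linftyOpNormedAddCommGroup Matrix.linftyOpNormedSpace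
  Matrix.linftyOpNormedRing Matrix.linftyOpNormedAlgebra

variable {r n s : ℕ} {R : Subring ℂ} {J : Fin s → Mat r}

/-! ### Substitutions in the first two handles -/

/-- Determinants one in both handles. -/
def GoodX (x : Tup 2 r) : Prop := ∀ i, (x i).1.det = 1 ∧ (x i).2.det = 1

lemma rel_two (x : Tup 2 r) : rel x = comm (x 0) * comm (x 1) := by
  simp [Surface.rel, List.ofFn_succ]

/-- Twists inside each handle. -/
def preF (q j : ℕ) (x : Tup 2 r) : Tup 2 r :=
  ![((x 0).1 * (x 0).2 ^ j, (x 0).2 * ((x 0).1 * (x 0).2 ^ j)), ((x 1).1 * (x 1).2 ^ q, (x 1).2)]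

/-- The inverse of `preF`. -/
def preG (q j : ℕ) (x : Tup 2 r) : Tup 2 r :=
  ![((x 0).1 * ((x 0).2 * (x 0).1.adjugate).adjugate ^ j, (x 0).2 * (x 0).1.adjugate),
    ((x 1).1 * (x 1).2.adjugate ^ q, (x 1).2)]

/-- The word of the slide between the first two handles. -/
def wd (x : Tup 2 r) : Mat r := (x 0).2.adjugate * (x 1).1 * (x 1).2

/-- The slide between the first two handles. -/
def slX (x : Tup 2 r) (k k' : Mat r) : Tup 2 r :=
  ![((x 0).1 * k', k * (x 0).2 * k'), (k * (x 1).1, (x 1).2 * k')]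

/-- Twists followed by a slide along its own word. -/
def sigF (q j : ℕ) (x : Tup 2 r) : Tup 2 r :=
  slX (preF q j x) (wd (preF q j x)) (wd (preF q j x)).adjugate

/-- The inverse of `sigF`. -/
def sigG (q j : ℕ) (x : Tup 2 r) : Tup 2 r :=
  preG q j (slX x (wd x).adjugate (wd x))

lemma adj_adj' {a : Mat r} (ha : a.det = 1) : a.adjugate.adjugate = a :=
  left_inv_eq_right_inv (adj_mul (det_adj ha)) (adj_mul ha)

lemma adj_pow_mul {a : Mat r} (ha : a.det = 1) (m : ℕ) :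
    a ^ m * a.adjugate ^ m = 1 ∧ a.adjugate ^ m * a ^ m = 1 := by
  constructor
  · rw [← (show Commute a a.adjugate from (mul_adj ha).trans (adj_mul ha).symm).mul_pow, mul_adj ha,
      one_pow]
  · rw [← (show Commute a.adjugate a from (adj_mul ha).trans (mul_adj ha).symm).mul_pow, adj_mul ha,
      one_pow]

lemma preF_spec (q j : ℕ) {x : Tup 2 r} (hx : GoodX x) :
    GoodX (preF q j x) ∧ rel (preF q j x) = rel x ∧ preG q j (preF q j x) = x := by
  obtain ⟨ha, hb⟩ := hx 0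
  obtain ⟨hc, hd⟩ := hx 1
  have ha' : ((x 0).1 * (x 0).2 ^ j).det = 1 := by simp [det_mul, det_pow, ha, hb]
  refine ⟨Fin.forall_fin_two.2 ⟨⟨ha', by simp [preF, det_mul, det_pow, ha, hb]⟩,
    ⟨by simp [preF, det_mul, det_pow, hc, hd], hd⟩⟩, ?_, ?_⟩
  · rw [rel_two, rel_two x]
    show comm ((x 0).1 * (x 0).2 ^ j, (x 0).2 * ((x 0).1 * (x 0).2 ^ j)) *
      comm ((x 1).1 * (x 1).2 ^ q, (x 1).2) = comm ((x 0).1, (x 0).2) * comm ((x 1).1, (x 1).2)
    rw [comm_twist_right ha' hb ha' rfl,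
      comm_twist_left ha hb (by rw [det_pow, hb, one_pow]) ((Commute.refl _).pow_left j),
      comm_twist_left hc hd (by rw [det_pow, hd, one_pow]) ((Commute.refl _).pow_left q)]
  · funext i
    have e : (x 0).2 * ((x 0).1 * (x 0).2 ^ j) * ((x 0).1 * (x 0).2 ^ j).adjugate = (x 0).2 := by
      rw [mul_assoc, mul_adj ha', mul_one]
    refine Fin.cases ?_ (fun i => ?_) i
    · show (_ * ((x 0).2 * ((x 0).1 * (x 0).2 ^ j) * ((x 0).1 * (x 0).2 ^ j).adjugate).adjugate ^ j,
        (x 0).2 * ((x 0).1 * (x 0).2 ^ j) * ((x 0).1 * (x 0).2 ^ j).adjugate) = x 0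
      rw [e]
      refine Prod.ext ?_ rfl
      show (x 0).1 * (x 0).2 ^ j * (x 0).2.adjugate ^ j = _
      rw [mul_assoc, (adj_pow_mul hb j).1, mul_one]
    · obtain rfl : i = 0 := Subsingleton.elim _ _
      refine Prod.ext ?_ rfl
      show (x 1).1 * (x 1).2 ^ q * (x 1).2.adjugate ^ q = _
      rw [mul_assoc, (adj_pow_mul hd q).1, mul_one]
      rfl

lemma preG_spec (q j : ℕ) {x : Tup 2 r} (hx : GoodX x) :
    GoodX (preG q j x) ∧ rel (preG q j x) = rel x := by
  obtain ⟨ha, hb⟩ := hx 0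
  obtain ⟨hc, hd⟩ := hx 1
  have hb' : ((x 0).2 * (x 0).1.adjugate).det = 1 := by rw [det_mul, hb, det_adj ha, one_mul]
  have hp : (((x 0).2 * (x 0).1.adjugate).adjugate ^ j).det = 1 := by
    rw [det_pow, det_adj hb', one_pow]
  have hq : ((x 1).2.adjugate ^ q).det = 1 := by rw [det_pow, det_adj hd, one_pow]
  refine ⟨Fin.forall_fin_two.2 ⟨⟨?_, hb'⟩, ⟨?_, hd⟩⟩, ?_⟩
  · show ((x 0).1 * _).det = 1
    rw [det_mul, ha, hp, one_mul]
  · show ((x 1).1 * _).det = 1
    rw [det_mul, hc, hq, one_mul]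
  · rw [rel_two, rel_two x]
    show comm ((x 0).1 * _, (x 0).2 * (x 0).1.adjugate) *
      comm ((x 1).1 * (x 1).2.adjugate ^ q, (x 1).2) = comm ((x 0).1, (x 0).2) * comm ((x 1).1, (x 1).2)
    have c1 : Commute ((x 0).2 * (x 0).1.adjugate).adjugate ((x 0).2 * (x 0).1.adjugate) :=
      (adj_mul hb').trans (mul_adj hb').symm
    have c2 : Commute (x 1).2.adjugate (x 1).2 := (adj_mul hd).trans (mul_adj hd).symm
    rw [comm_twist_left ha hb' hp (c1.pow_left j).eq, comm_twist_left hc hd hq (c2.pow_left q).eq,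
      comm_twist_right ha hb (det_adj ha) (by rw [adj_mul ha, mul_adj ha])]

lemma slX_spec {x : Tup 2 r} (hx : GoodX x) {k : Mat r} (hk : k.det = 1)
    (hc : k * wd x = wd x * k) :
    GoodX (slX x k k.adjugate) ∧ rel (slX x k k.adjugate) = rel x := by
  refine ⟨Fin.forall_fin_two.2 ⟨?_, ?_⟩, ?_⟩
  · simp [slX, det_mul, det_adj hk, hk, hx 0]
  · simp [slX, det_mul, det_adj hk, hk, hx 1]
  obtain ⟨A, hA⟩ : ∃ A : SpecialLinearGroup (Fin r) ℂ, (↑A : Mat r) = (x 0).1 :=
    ⟨⟨_, (hx 0).1⟩, rfl⟩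
  obtain ⟨B, hB⟩ : ∃ A : SpecialLinearGroup (Fin r) ℂ, (↑A : Mat r) = (x 0).2 :=
    ⟨⟨_, (hx 0).2⟩, rfl⟩
  obtain ⟨C, hC⟩ : ∃ A : SpecialLinearGroup (Fin r) ℂ, (↑A : Mat r) = (x 1).1 :=
    ⟨⟨_, (hx 1).1⟩, rfl⟩
  obtain ⟨D, hD⟩ : ∃ A : SpecialLinearGroup (Fin r) ℂ, (↑A : Mat r) = (x 1).2 :=
    ⟨⟨_, (hx 1).2⟩, rfl⟩
  obtain ⟨K, rfl⟩ : ∃ A : SpecialLinearGroup (Fin r) ℂ, (↑A : Mat r) = k := ⟨⟨_, hk⟩, rfl⟩
  rw [rel_two, rel_two x, show comm (x 0) = comm ((x 0).1, (x 0).2) from rfl,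
    show comm (x 1) = comm ((x 1).1, (x 1).2) from rfl]
  show comm ((x 0).1 * _, _ * (x 0).2 * _) * comm (_ * (x 1).1, (x 1).2 * _) = _
  simp only [wd, ← hA, ← hB, ← hC, ← hD] at hc ⊢
  have hc' : K * (B⁻¹ * C * D) = B⁻¹ * C * D * K := Subtype.ext (by simpa using hc)
  suffices key : A * K⁻¹ * (K * B * K⁻¹) * (A * K⁻¹)⁻¹ * (K * B * K⁻¹)⁻¹ *
      (K * C * (D * K⁻¹) * (K * C)⁻¹ * (D * K⁻¹)⁻¹) = A * B * A⁻¹ * B⁻¹ * (C * D * C⁻¹ * D⁻¹) by
    simp only [Surface.comm]
    exact congrArg (fun G : SpecialLinearGroup (Fin r) ℂ => (↑G : Mat r)) key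
  calc A * K⁻¹ * (K * B * K⁻¹) * (A * K⁻¹)⁻¹ * (K * B * K⁻¹)⁻¹ *
      (K * C * (D * K⁻¹) * (K * C)⁻¹ * (D * K⁻¹)⁻¹)
      = A * B * A⁻¹ * (K * (B⁻¹ * C * D)) * K⁻¹ * C⁻¹ * D⁻¹ := by group
    _ = A * B * A⁻¹ * (B⁻¹ * C * D * K) * K⁻¹ * C⁻¹ * D⁻¹ := by rw [hc']
    _ = A * B * A⁻¹ * B⁻¹ * (C * D * C⁻¹ * D⁻¹) := by group

lemma wd_det {x : Tup 2 r} (hx : GoodX x) : (wd x).det = 1 := by
  simp [wd, det_mul, det_adj (hx 0).2, hx 1]

lemma sigF_spec (q j : ℕ) {x : Tup 2 r} (hx : GoodX x) :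
    GoodX (sigF q j x) ∧ rel (sigF q j x) = rel x ∧ sigG q j (sigF q j x) = x := by
  obtain ⟨h1, h2, h3⟩ := preF_spec q j hx
  rw [sigF]
  revert h1 h2 h3
  generalize preF q j x = z
  intro h1 h2 h3
  obtain ⟨g1, g2⟩ := slX_spec h1 (wd_det h1) rfl
  refine ⟨g1, g2.trans h2, ?_⟩
  set w := wd z with hw
  have hwd : w.det = 1 := wd_det h1
  have e : wd (slX z w w.adjugate) = w := by
    show (w * (z 0).2 * w.adjugate).adjugate * (w * (z 1).1) * ((z 1).2 * w.adjugate) = w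
    rw [adjugate_mul_distrib, adjugate_mul_distrib, adj_adj' hwd]
    calc _ = w * (z 0).2.adjugate * (w.adjugate * w) * (z 1).1 * (z 1).2 * w.adjugate := by
          simp only [mul_assoc]
      _ = w * w * w.adjugate := by rw [adj_mul hwd, mul_one, hw, wd]; simp only [mul_assoc]
      _ = w := by rw [mul_assoc, mul_adj hwd, mul_one]
  rw [sigG, e, ← h3]
  congr 1
  funext i
  refine Fin.cases ?_ (fun i => ?_) i
  · show ((z 0).1 * w.adjugate * w, w.adjugate * (w * (z 0).2 * w.adjugate) * w) = z 0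
    simp only [mul_assoc, adj_mul hwd, mul_one]
    simp only [← mul_assoc, adj_mul hwd, one_mul]
  · obtain rfl : i = 0 := Subsingleton.elim _ _
    show (w.adjugate * (w * (z 1).1), (z 1).2 * w.adjugate * w) = z 1
    simp only [mul_assoc, adj_mul hwd, mul_one]
    simp only [← mul_assoc, adj_mul hwd, one_mul]

lemma sigG_spec (q j : ℕ) {x : Tup 2 r} (hx : GoodX x) :
    GoodX (sigG q j x) ∧ rel (sigG q j x) = rel x := by
  have hw := wd_det hx
  obtain ⟨g1, g2⟩ := slX_spec hx (det_adj hw) (by rw [adj_mul hw, mul_adj hw])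
  rw [adj_adj' hw] at g1 g2
  obtain ⟨h1, h2⟩ := preG_spec q j g1
  exact ⟨h1, h2.trans g2⟩

lemma PMap.two {T : Type*} [NormedAddCommGroup T] [NormedSpace ℂ T] {φ ψ : T → Mat r × Mat r}
    (hφ : PMap φ) (hψ : PMap ψ) : PMap (fun t => (![φ t, ψ t] : Tup 2 r)) :=
  PMap.pi fun i => by
    refine Fin.cases ?_ (fun i => ?_) i
    · exact hφ
    · obtain rfl : i = 0 := Subsingleton.elim _ _
      exact hψ

lemma PMap.slX {T : Type*} [NormedAddCommGroup T] [NormedSpace ℂ T] {φ : T → Tup 2 r}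
    {k k' : T → Mat r} (hφ : PMap φ) (hk : PMap k) (hk' : PMap k') :
    PMap (fun t => General.slX (φ t) (k t) (k' t)) :=
  PMap.two ((((PMap.slot1 0).comp hφ).mul hk').prodMk ((hk.mul ((PMap.slot2 0).comp hφ)).mul hk'))
    ((hk.mul ((PMap.slot1 1).comp hφ)).prodMk (((PMap.slot2 1).comp hφ).mul hk'))

lemma PMap.wd : PMap (fun x : Tup 2 r => General.wd x) :=
  ((PMap.slot2 0).adjugate.mul (PMap.slot1 1)).mul (PMap.slot2 1)

lemma PMap.sigF (q j : ℕ) : PMap (fun x : Tup 2 r => General.sigF q j x) := by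
  have hp : PMap (fun x : Tup 2 r => preF q j x) :=
    PMap.two (((PMap.slot1 0).mul ((PMap.slot2 0).mpow j)).prodMk
        ((PMap.slot2 0).mul ((PMap.slot1 0).mul ((PMap.slot2 0).mpow j))))
      (((PMap.slot1 1).mul ((PMap.slot2 1).mpow q)).prodMk (PMap.slot2 1))
  exact PMap.slX hp (PMap.wd.comp hp) (PMap.wd.comp hp).adjugate

lemma PMap.sigG (q j : ℕ) : PMap (fun x : Tup 2 r => General.sigG q j x) := by
  have hp : PMap (fun x : Tup 2 r => preG q j x) :=
    PMap.two (((PMap.slot1 0).mul ((((PMap.slot2 0).mul (PMap.slot1 0).adjugate)).adjugate.mpow j)).prodMk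
        ((PMap.slot2 0).mul (PMap.slot1 0).adjugate))
      (((PMap.slot1 1).mul ((PMap.slot2 1).adjugate.mpow q)).prodMk (PMap.slot2 1))
  exact hp.comp (PMap.slX PMap.id' PMap.wd.adjugate PMap.wd)

lemma slX_int {x : Tup 2 r} (hx : Twisted.IntTup R x) {k k' : Mat r} (hk : IntMat R k)
    (hk' : IntMat R k') : Twisted.IntTup R (slX x k k') :=
  Fin.forall_fin_two.2 ⟨⟨(hx 0).1.mul hk', (hk.mul (hx 0).2).mul hk'⟩,
    ⟨hk.mul (hx 1).1, (hx 1).2.mul hk'⟩⟩

lemma wd_int {x : Tup 2 r} (hx : Twisted.IntTup R x) : IntMat R (wd x) :=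
  ((hx 0).2.adjugate.mul (hx 1).1).mul (hx 1).2

lemma sigF_int (q j : ℕ) {x : Tup 2 r} (hx : Twisted.IntTup R x) :
    Twisted.IntTup R (sigF q j x) := by
  have hp : Twisted.IntTup R (preF q j x) := Fin.forall_fin_two.2
    ⟨⟨(hx 0).1.mul ((hx 0).2.pow j), (hx 0).2.mul ((hx 0).1.mul ((hx 0).2.pow j))⟩,
      ⟨(hx 1).1.mul ((hx 1).2.pow q), (hx 1).2⟩⟩
  exact slX_int hp (wd_int hp) (wd_int hp).adjugate

lemma sigG_int (q j : ℕ) {x : Tup 2 r} (hx : Twisted.IntTup R x) :
    Twisted.IntTup R (sigG q j x) := by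
  have hp := slX_int hx (wd_int hx).adjugate (wd_int hx)
  exact Fin.forall_fin_two.2 ⟨⟨(hp 0).1.mul (((hp 0).2.mul (hp 0).1.adjugate).adjugate.pow j),
    (hp 0).2.mul (hp 0).1.adjugate⟩, ⟨(hp 1).1.mul ((hp 1).2.adjugate.pow q), (hp 1).2⟩⟩

/-- The value of the slid handle at a mirror point. -/
lemma sigF_mirror {a b : Mat r} (ha : a.det = 1) (hb : b.det = 1) (e j : ℕ) :
    (sigF (e + 1) j (Surface.Mir 0 a b) 1).2 = a.adjugate ^ e * b ^ j := by
  show a * ((b * (a * b ^ j)).adjugate * (b * a ^ (e + 1)) * a).adjugate = _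
  have e1 : (b * (a * b ^ j)).adjugate * (b * a ^ (e + 1)) * a = b.adjugate ^ j * a ^ (e + 1) := by
    simp only [adjugate_mul_distrib, adjugate_pow, mul_assoc]
    rw [← mul_assoc b.adjugate b, adj_mul hb, one_mul, pow_succ', mul_assoc a,
      ← mul_assoc a.adjugate a, adj_mul ha, one_mul, ← pow_succ, pow_succ']
  rw [e1, adjugate_mul_distrib, adjugate_pow, adjugate_pow, adj_adj' hb, pow_succ', ← mul_assoc,
    ← mul_assoc, mul_adj ha, one_mul]

attribute [local irreducible] sigF sigG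

/-! ### The move and its flow -/

variable (P : Piece R J n) (q j : ℕ)

/-- The word of the move. -/
def word (p : Sp n s r) : Mat r :=
  (sigF q j p.1 1).2.adjugate * P.pre p.2 * P.mat p.2 * (P.pre p.2).adjugate

/-- The substitution of the move. -/
def act (p : Sp n s r) (k k' : Mat r) : Sp n s r :=
  (sigG q j ![sigF q j p.1 0, ((sigF q j p.1 1).1 * k', k * (sigF q j p.1 1).2 * k')],
    P.upd p.2 ((P.pre p.2).adjugate * k * P.pre p.2) ((P.pre p.2).adjugate * k' * P.pre p.2))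

lemma PMap.word : PMap (fun p : Sp n s r => General.word P q j p) :=
  ((((PMap.slot2 1).comp ((PMap.sigF q j).comp PMap.fst)).adjugate.mul (P.ppre.comp PMap.snd)).mul
    (P.pmat.comp PMap.snd)).mul (P.ppre.comp PMap.snd).adjugate

lemma PMap.act :
    PMap (fun t : Sp n s r × (Mat r × Mat r) => General.act P q j t.1 t.2.1 t.2.2) := by
  have hx : PMap (fun t : Sp n s r × (Mat r × Mat r) => General.sigF q j t.1.1) :=
    (PMap.sigF q j).comp (PMap.fst.comp PMap.fst)
  have hy : PMap (fun t : Sp n s r × (Mat r × Mat r) => t.1.2) := PMap.snd.comp PMap.fst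
  have hk : PMap (fun t : Sp n s r × (Mat r × Mat r) => t.2.1) := PMap.fst.comp PMap.snd
  have hk' : PMap (fun t : Sp n s r × (Mat r × Mat r) => t.2.2) := PMap.snd.comp PMap.snd
  have hm := P.ppre.comp hy
  refine PMap.prodMk ((PMap.sigG q j).comp (PMap.two ((PMap.proj 0).comp hx)
    ((((PMap.slot1 1).comp hx).mul hk').prodMk ((hk.mul ((PMap.slot2 1).comp hx)).mul hk')))) ?_
  exact PMap.comp (φ := fun v : YSp n s r × (Mat r × Mat r) => P.upd v.1 v.2.1 v.2.2) P.pupd
    (hy.prodMk (((hm.adjugate.mul hk).mul hm).prodMk ((hm.adjugate.mul hk').mul hm)))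

lemma word_det {p : Sp n s r} (hp : p ∈ HomS J) : (word P q j p).det = 1 := by
  simp [word, det_mul, det_adj ((sigF_spec q j hp.1).1 1).2, det_adj (P.pre_det _ hp.2.1), P.pre_det _ hp.2.1,
    P.mat_det _ hp.2.1]

lemma word_int {p : Sp n s r} (hp : IntS R p) : IntMat R (word P q j p) :=
  (((sigF_int q j hp.1 1).2.adjugate.mul (P.pre_int _ hp.2)).mul (P.mat_int _ hp.2)).mul
    (P.pre_int _ hp.2).adjugate

lemma slide_rel {M C : Mat r} {T T' : Mat r} {z : Tup 2 r} (hz : GoodX z) {k : Mat r}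
    (hk : k.det = 1)
    (hsl : ∀ a b : Mat r, a.det = 1 → b.det = 1 →
      k * (b.adjugate * M * C * M.adjugate) = b.adjugate * M * C * M.adjugate * k →
      comm (a * k.adjugate, k * b * k.adjugate) * T' = comm (a, b) * T)
    (hc : k * ((z 1).2.adjugate * M * C * M.adjugate) = (z 1).2.adjugate * M * C * M.adjugate * k) :
    GoodX ![z 0, ((z 1).1 * k.adjugate, k * (z 1).2 * k.adjugate)] ∧
      rel ![z 0, ((z 1).1 * k.adjugate, k * (z 1).2 * k.adjugate)] * T' = rel z * T := by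
  refine ⟨Fin.forall_fin_two.2 ⟨hz 0, by simp [det_mul, det_adj hk, hk, hz 1]⟩, ?_⟩
  rw [rel_two, rel_two z]
  show comm (z 0) * comm ((z 1).1 * k.adjugate, k * (z 1).2 * k.adjugate) * _ = _
  rw [mul_assoc, hsl _ _ (hz 1).1 (hz 1).2 hc, ← mul_assoc]

lemma act_hom {p : Sp n s r} (hp : p ∈ HomS J) {k : Mat r} (hk : k.det = 1)
    (hc : k * word P q j p = word P q j p * k) : act P q j p k k.adjugate ∈ HomS J := by
  obtain ⟨h1, h2, -⟩ := sigF_spec q j hp.1
  have hMd : (P.pre p.2).det = 1 := P.pre_det _ hp.2.1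
  have hKd : ((P.pre p.2).adjugate * k * P.pre p.2).det = 1 := by
    simp [det_mul, det_adj hMd, hMd, hk]
  have hKa : ((P.pre p.2).adjugate * k * P.pre p.2).adjugate =
      (P.pre p.2).adjugate * k.adjugate * P.pre p.2 := by
    rw [adjugate_mul_distrib, adjugate_mul_distrib, adj_adj' hMd, mul_assoc]
  have hgood := P.upd_good _ hp.2.1 _ hKd
  rw [hKa] at hgood
  have hs := slide_rel (T := tailRel J p.2) h1 hk
    (fun a b ha hb h => P.slide a b ha hb p.2 hp.2.1 k hk h) hc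
  obtain ⟨g1, g2⟩ := sigG_spec q j hs.1
  refine ⟨g1, hgood, ?_⟩
  unfold act
  rw [g2, hs.2, h2]
  exact hp.2.2

lemma slid_int {z : Tup 2 r} (hz : Twisted.IntTup R z) {k k' : Mat r} (hk : IntMat R k)
    (hk' : IntMat R k') :
    Twisted.IntTup R ![z 0, ((z 1).1 * k', k * (z 1).2 * k')] :=
  Fin.forall_fin_two.2 ⟨hz 0, ⟨(hz 1).1.mul hk', (hk.mul (hz 1).2).mul hk'⟩⟩

lemma act_int {p : Sp n s r} {k k' : Mat r} (hp : IntS R p) (hk : IntMat R k) (hk' : IntMat R k') :
    IntS R (act P q j p k k') := by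
  have hz := sigF_int q j hp.1
  have hm := P.pre_int _ hp.2
  unfold act
  exact ⟨sigG_int q j (slid_int hz hk hk'),
    P.upd_int _ _ _ hp.2 ((hm.adjugate.mul hk).mul hm) ((hm.adjugate.mul hk').mul hm)⟩

lemma act_one {p : Sp n s r} (hp : p ∈ HomS J) : act P q j p 1 1 = p := by
  have hM := P.pre_det _ hp.2.1
  have e : (![sigF q j p.1 0, sigF q j p.1 1] : Tup 2 r) = sigF q j p.1 := by
    funext i; fin_cases i <;> rfl
  simp [act, adj_mul hM, P.upd_one, e, (sigF_spec q j hp.1).2.2]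

/-- The flow of the move. -/
noncomputable def flow (m : ℕ) (u : ℂ) (p : Sp n s r) : Sp n s r :=
  act P q j p (exp (u • tlPow m (word P q j p))) (exp (-(u • tlPow m (word P q j p))))

lemma flow_contDiff (m : ℕ) : ContDiff ℂ 1 (fun t : ℂ × Sp n s r => flow P q j m t.1 t.2) := by
  have h1 : ContDiff ℂ 1 (fun t : ℂ × Sp n s r => t.1 • Surface.tlPow m (word P q j t.2)) :=
    contDiff_fst.smul (((PMap.word P q j).tlPow m).contDiff.comp contDiff_snd)
  exact (PMap.act P q j).contDiff.comp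
    (contDiff_snd.prodMk ((contDiff_mexp.comp h1).prodMk (contDiff_mexp.comp h1.neg)))

/-- A flow preserving the closure along curves through some mirror point over `y0`. -/
def Nice (J : Fin s → Mat r) (R : Subring ℂ) (y0 : YSp n s r)
    (Ψ : ℂ → Sp n s r → Sp n s r) : Prop :=
  ContDiff ℂ 1 (fun t : ℂ × Sp n s r => Ψ t.1 t.2) ∧
  (∀ p ∈ HomS J, Ψ 0 p = p) ∧
  ∃ a b : Mat r, a.det = 1 ∧ b.det = 1 ∧ ∀ x : ℂ → Sp n s r, ContDiff ℂ 1 x →
    (∀ z, x z ∈ ClS J R) → x 0 = (Surface.Mir 0 a b, y0) → ∀ u z, Ψ u (x z) ∈ ClS J R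

lemma pow_conj {S : Mat r} (hS : S.det = 1) (A : Mat r) (m : ℕ) :
    (S * A * S.adjugate) ^ m = S * A ^ m * S.adjugate := by
  induction m with
  | zero => simp [mul_adj hS]
  | succ m ih =>
    rw [pow_succ, ih, pow_succ]
    simp only [mul_assoc]
    rw [← mul_assoc S.adjugate S, adj_mul hS, one_mul]

lemma exp_conj' {S : Mat r} (hS : S.det = 1) (A : Mat r) :
    exp (S * A * S.adjugate) = S * exp A * S.adjugate := by
  have := Matrix.exp_units_conj (⟨S, S.adjugate, mul_adj hS, adj_mul hS⟩ : (Mat r)ˣ) A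
  simpa using this

/-- `torus_vanish` near a conjugate of a generic diagonal matrix. -/
lemma torus_vanish_conj {Y : Type*} [NormedAddCommGroup Y] [NormedSpace ℂ Y] {lam : Fin r → ℂ}
    (hl : Generic lam) (hinj : ∀ i j, lam i = lam j → i = j) {S : Mat r} (hS : S.det = 1)
    {f : Y × (Mat r × Mat r) → ℂ} (hf : f ∈ PF (Y × (Mat r × Mat r))) :
    ∀ᶠ A in 𝓝 (S * diagonal lam * S.adjugate), A.det = 1 →
      ∀ y : Y, (∀ n : ℕ, f (y, (A ^ n, (A ^ n).adjugate)) = 0) →
      ∀ (u : ℂ) (m : ℕ), f (y, (exp (u • tlPow m A), exp (-(u • tlPow m A)))) = 0 := by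
  have hS' := det_adj hS
  have hf' : (fun t : Y × (Mat r × Mat r) =>
      f (t.1, (S * t.2.1 * S.adjugate, S * t.2.2 * S.adjugate))) ∈ PF (Y × (Mat r × Mat r)) :=
    PF.comp hf (PMap.fst.prodMk ((((PMap.const S).mul (PMap.fst.comp PMap.snd)).mul
      (PMap.const _)).prodMk (((PMap.const S).mul (PMap.snd.comp PMap.snd)).mul (PMap.const _))))
  have hback : S.adjugate * (S * diagonal lam * S.adjugate) * S = diagonal lam := by
    simp only [mul_assoc, adj_mul hS, mul_one]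
    rw [← mul_assoc, adj_mul hS, one_mul]
  have hc : Tendsto (fun A : Mat r => S.adjugate * A * S) (𝓝 (S * diagonal lam * S.adjugate))
      (𝓝 (diagonal lam)) := by
    have hcont : Continuous fun A : Mat r => S.adjugate * A * S :=
      (continuous_const.mul continuous_id).mul continuous_const
    have := hcont.tendsto (S * diagonal lam * S.adjugate)
    rwa [hback] at this
  refine (hc.eventually (torus_vanish hl hinj hf')).mono fun A hA hdet y hy u m => ?_
  have hA2 : S * (S.adjugate * A * S) * S.adjugate = A := by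
    simp only [← mul_assoc, mul_adj hS, one_mul]
    rw [mul_assoc, mul_adj hS, mul_one]
  set B := S.adjugate * A * S with hB
  have hBd : B.det = 1 := by simp [hB, det_mul, hS', hS, hdet]
  have htl : tlPow m A = S * tlPow m B * S.adjugate := by
    conv_lhs => rw [← hA2]
    rw [tlPow, tlPow, pow_conj hS, trace_mul_cycle, adj_mul hS, one_mul, mul_sub, sub_mul,
      mul_smul_comm, smul_mul_assoc, mul_one, mul_adj hS]
  have h := hA hBd y (fun N => ?_) u m
  · have e1 : exp (u • tlPow m A) = S * exp (u • tlPow m B) * S.adjugate := by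
      rw [htl, ← exp_conj' hS, mul_smul_comm, smul_mul_assoc]
    have e2 : exp (-(u • tlPow m A)) = S * exp (-(u • tlPow m B)) * S.adjugate := by
      rw [htl, ← exp_conj' hS, mul_neg, neg_mul, mul_smul_comm, smul_mul_assoc]
    rw [e1, e2]; exact h
  · show f (y, (S * B ^ N * S.adjugate, S * (B ^ N).adjugate * S.adjugate)) = 0
    have e : S * (B ^ N).adjugate * S.adjugate = (S * B ^ N * S.adjugate).adjugate := by
      rw [adjugate_mul_distrib, adjugate_mul_distrib, adj_adj' hS, mul_assoc]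
    rw [e, ← pow_conj hS, hA2]
    exact hy N

lemma nice {y0 : YSp n s r} (hy : GoodY y0) {e : ℕ} (he : 0 < e) (m : ℕ) :
    Nice J R y0 (flow P (e + 1) j m) := by
  refine ⟨flow_contDiff P _ j m, fun p hp => by simp [flow, exp_zero, act_one P _ j hp], ?_⟩
  have hX : (P.pre y0 * P.mat y0 * (P.pre y0).adjugate).det = 1 := by
    simp [det_mul, det_adj (P.pre_det _ hy), P.pre_det _ hy, P.mat_det _ hy]
  obtain ⟨lam, a, S, hl, hinj, ha, hS, hae⟩ := exists_pow_mul_generic hX he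
  refine ⟨a, 1, ha, det_one, fun x hx hcl hx0 u z => ?_⟩
  intro f hf hvan
  let F : ℂ → ℂ := fun w => f (flow P (e + 1) j m u (x w))
  have hF : Differentiable ℂ F :=
    ((PF.contDiff hf).comp ((flow_contDiff P _ j m).comp (contDiff_const.prodMk hx))).differentiable
      one_ne_zero
  have hev : ∀ᶠ w in 𝓝 (0 : ℂ), F w = 0 := by
    have hf' : (fun t : Sp n s r × (Mat r × Mat r) => f (act P (e + 1) j t.1 t.2.1 t.2.2)) ∈
        PF (Sp n s r × (Mat r × Mat r)) := PF.comp hf (PMap.act P _ j)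
    have hw0 : word P (e + 1) j (Surface.Mir 0 a 1, y0) = S * diagonal lam * S.adjugate := by
      show (sigF (e + 1) j (Surface.Mir 0 a 1) 1).2.adjugate * _ * _ * _ = _
      rw [sigF_mirror ha det_one, one_pow, mul_one, adjugate_pow, adj_adj' ha, ← hae]
      simp only [mul_assoc]
    have hc : Tendsto (fun w => word P (e + 1) j (x w)) (𝓝 0)
        (𝓝 (S * diagonal lam * S.adjugate)) := by
      have h' : Continuous (fun w => word P (e + 1) j (x w)) :=
        ((PMap.word P _ j).contDiff.comp hx).continuous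
      have := h'.tendsto 0
      rwa [hx0, hw0] at this
    filter_upwards [hc.eventually (torus_vanish_conj hl hinj hS hf')] with w hw
    refine hw (word_det P _ j (ClS.subset_hom (hcl w))) (x w) (fun N => ?_) u m
    have hφ : PMap (fun p : Sp n s r =>
        act P (e + 1) j p (word P (e + 1) j p ^ N) ((word P (e + 1) j p ^ N).adjugate)) :=
      (PMap.act P _ j).comp
        (PMap.id'.prodMk (((PMap.word P _ j).mpow N).prodMk ((PMap.word P _ j).mpow N).adjugate))
    exact hcl w (fun p => f (act P (e + 1) j p (word P (e + 1) j p ^ N)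
        ((word P (e + 1) j p ^ N).adjugate))) (PF.comp hf hφ)
      fun p hp hi => hvan _
        (act_hom P _ j hp (by rw [det_pow, word_det P _ j hp, one_pow]) ((Commute.refl _).pow_left N))
        (act_int P _ j hi ((word_int P _ j hi).pow N) ((word_int P _ j hi).pow N).adjugate)
  have := (show AnalyticOnNhd ℂ F Set.univ from fun w _ =>
    hF.analyticAt w).eqOn_zero_of_preconnected_of_eventuallyEq_zero
    isPreconnected_univ (Set.mem_univ (0 : ℂ)) hev (Set.mem_univ z)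
  exact this

end Vale.Agent.P002.General
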