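import Vale.Agent.P002.Surface.Moves
import Vale.Agent.P002.Surface.Open
import Vale.Agent.P002.Surface.Span
import Vale.Agent.P002.Twisted.Basic

/-! The space of representations with boundary in prescribed classes, presented by conjugators,
and the slide pieces acting on its slots. -/

open Matrix

namespace Vale.Agent.P002.General

open Vale.Agent.P002.Surface (Mat Tup comm rel PF PMap mul_adj adj_mul det_adj comm_slide
  comm_twist_left comm_twist_right hom_comm_det ofFn_prod_split)
open Vale.Agent.P002.Twisted (IntMat)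

attribute [local instance] Matrix.linftyOpNormedAddCommGroup Matrix.linftyOpNormedSpace
  Matrix.linftyOpNormedRing Matrix.linftyOpNormedAlgebra

variable {r n s : ℕ} {R : Subring ℂ}

/-- Extra handles and conjugators. -/
abbrev YSp (n s r : ℕ) : Type := Tup n r × (Fin s → Mat r)

/-- The whole space: two handles, extra handles, conjugators. -/
abbrev Sp (n s r : ℕ) : Type := Tup 2 r × YSp n s r

/-- The boundary matrices `kᵢ Jᵢ kᵢ⁻¹`. -/
def bd (J : Fin s → Mat r) (k : Fin s → Mat r) : Fin s → Mat r :=
  fun i => k i * J i * (k i).adjugate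

/-- Product of the extra commutators and the boundary matrices. -/
def tailRel (J : Fin s → Mat r) (y : YSp n s r) : Mat r := rel y.1 * (List.ofFn (bd J y.2)).prod

/-- All determinants are one. -/
def GoodY (y : YSp n s r) : Prop := (∀ i, (y.1 i).1.det = 1 ∧ (y.1 i).2.det = 1) ∧ ∀ i, (y.2 i).det = 1

/-- Entries in `R`. -/
def IntY (R : Subring ℂ) (y : YSp n s r) : Prop :=
  (∀ i, IntMat R (y.1 i).1 ∧ IntMat R (y.1 i).2) ∧ ∀ i, IntMat R (y.2 i)

/-- Representations with conjugators. -/
def HomS (J : Fin s → Mat r) : Set (Sp n s r) :=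
  {p | (∀ i, (p.1 i).1.det = 1 ∧ (p.1 i).2.det = 1) ∧ GoodY p.2 ∧ rel p.1 * tailRel J p.2 = 1}

/-- Points with entries in `R`. -/
def IntS (R : Subring ℂ) (p : Sp n s r) : Prop := Twisted.IntTup R p.1 ∧ IntY R p.2

/-- The closure of the integral points. -/
def ClS (J : Fin s → Mat r) (R : Subring ℂ) : Set (Sp n s r) :=
  {p | ∀ f ∈ PF (Sp n s r), (∀ q ∈ HomS J, IntS R q → f q = 0) → f p = 0}

lemma PMap.px (i : Fin 2) : PMap (fun p : Sp n s r => p.1 i) := (PMap.proj i).comp PMap.fst

lemma PMap.yN (i : Fin n) : PMap (fun y : YSp n s r => y.1 i) := (PMap.proj i).comp PMap.fst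

lemma PMap.yk (i : Fin s) : PMap (fun y : YSp n s r => y.2 i) := (PMap.proj i).comp PMap.snd

lemma PMap.bd (J : Fin s → Mat r) (i : Fin s) :
    PMap (fun y : YSp n s r => General.bd J y.2 i) :=
  ((PMap.yk i).mul (PMap.const _)).mul (PMap.yk i).adjugate

lemma PMap.tailRel (J : Fin s → Mat r) : PMap (fun y : YSp n s r => General.tailRel J y) := by
  refine PMap.mul (φ := fun y : YSp n s r => Surface.rel y.1) (PMap.rel.comp PMap.fst) ?_
  have : (fun y : YSp n s r => (List.ofFn (General.bd J y.2)).prod) =
      fun y => ((List.finRange s).map fun i => General.bd J y.2 i).prod := by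
    funext y; rw [List.ofFn_eq_map]
  rw [this]
  exact PMap.listProd _ _ fun i _ => PMap.bd J i

lemma ClS.subset_hom {J : Fin s → Mat r} {p : Sp n s r} (hp : p ∈ ClS J R) : p ∈ HomS J := by
  refine ⟨fun i => ⟨?_, ?_⟩, ⟨fun i => ⟨?_, ?_⟩, fun i => ?_⟩, ?_⟩
  · have h := hp (fun q => (q.1 i).1.det - 1) ((PF _).sub_mem
      (PMap.det' fun a b => (PMap.fst.comp (PMap.px i)).entry a b) (PF.const 1))
      (fun q hq _ => by simp [(hq.1 i).1])
    simpa [sub_eq_zero] using h
  · have h := hp (fun q => (q.1 i).2.det - 1) ((PF _).sub_mem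
      (PMap.det' fun a b => (PMap.snd.comp (PMap.px i)).entry a b) (PF.const 1))
      (fun q hq _ => by simp [(hq.1 i).2])
    simpa [sub_eq_zero] using h
  · have h := hp (fun q => (q.2.1 i).1.det - 1) ((PF _).sub_mem
      (PMap.det' fun a b => (PMap.fst.comp ((PMap.yN i).comp PMap.snd)).entry a b) (PF.const 1))
      (fun q hq _ => by simp [(hq.2.1.1 i).1])
    simpa [sub_eq_zero] using h
  · have h := hp (fun q => (q.2.1 i).2.det - 1) ((PF _).sub_mem
      (PMap.det' fun a b => (PMap.snd.comp ((PMap.yN i).comp PMap.snd)).entry a b) (PF.const 1))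
      (fun q hq _ => by simp [(hq.2.1.1 i).2])
    simpa [sub_eq_zero] using h
  · have h := hp (fun q => (q.2.2 i).det - 1) ((PF _).sub_mem
      (PMap.det' fun a b => ((PMap.yk i).comp PMap.snd).entry a b) (PF.const 1))
      (fun q hq _ => by simp [hq.2.1.2 i])
    simpa [sub_eq_zero] using h
  · ext a b
    have h := hp (fun q => (Surface.rel q.1 * General.tailRel J q.2) a b - (1 : Mat r) a b)
      ((PF _).sub_mem (((PMap.rel.comp PMap.fst).mul ((PMap.tailRel J).comp PMap.snd)).entry a b)
        (PF.const _)) (fun q hq _ => by simp [hq.2.2])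
    simpa [sub_eq_zero] using h

/-- A pair of a surface representation in the integral closure and a fixed integral tail. -/
lemma ClS.of_surface {J : Fin s → Mat r} {y : YSp n s r} (hy : GoodY y) (hyi : IntY R y)
    (hy1 : General.tailRel J y = 1) {x : Tup 2 r} (hx : x ∈ Surface.Cl 2 r) :
    ((x, y) : Sp n s r) ∈ ClS J R := by
  intro f hf hvan
  refine hx (fun z => f (z, y)) (PF.comp hf (PMap.id'.prodMk (PMap.const y))) fun z hz hzi => ?_
  refine hvan _ ⟨hz.1, hy, by rw [hz.2, hy1, one_mul]⟩ ⟨fun i => ⟨?_, ?_⟩, hyi⟩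
  · obtain ⟨N, hN⟩ := (hzi i).1
    intro a b; rw [← hN]; simp
  · obtain ⟨N, hN⟩ := (hzi i).2
    intro a b; rw [← hN]; simp

/-- A slot of the tail that a handle can slide over. -/
structure Piece (R : Subring ℂ) (J : Fin s → Mat r) (n : ℕ) where
  pre : YSp n s r → Mat r
  mat : YSp n s r → Mat r
  upd : YSp n s r → Mat r → Mat r → YSp n s r
  ppre : PMap pre
  pmat : PMap mat
  pupd : PMap (fun q : YSp n s r × (Mat r × Mat r) => upd q.1 q.2.1 q.2.2)
  pre_det : ∀ y, GoodY y → (pre y).det = 1
  mat_det : ∀ y, GoodY y → (mat y).det = 1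
  pre_int : ∀ y, IntY R y → IntMat R (pre y)
  mat_int : ∀ y, IntY R y → IntMat R (mat y)
  upd_good : ∀ y, GoodY y → ∀ K, K.det = 1 → GoodY (upd y K K.adjugate)
  upd_int : ∀ y K K', IntY R y → IntMat R K → IntMat R K' → IntY R (upd y K K')
  upd_one : ∀ y, upd y 1 1 = y
  slide : ∀ a b : Mat r, a.det = 1 → b.det = 1 → ∀ y, GoodY y → ∀ k : Mat r, k.det = 1 →
    k * (b.adjugate * pre y * mat y * (pre y).adjugate) =
      b.adjugate * pre y * mat y * (pre y).adjugate * k →
    comm (a * k.adjugate, k * b * k.adjugate) *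
        tailRel J (upd y ((pre y).adjugate * k * pre y) ((pre y).adjugate * k.adjugate * pre y)) =
      comm (a, b) * tailRel J y

lemma ofFn_prod_update {m : ℕ} (f : Fin m → Mat r) (j : Fin m) (v : Mat r) :
    (List.ofFn (Function.update f j v)).prod =
      ((List.ofFn f).take j).prod * v * ((List.ofFn f).drop (j + 1)).prod := by
  rw [ofFn_prod_split _ j, Function.update_self]
  have e1 : (List.ofFn (Function.update f j v)).take j = (List.ofFn f).take j := by
    refine List.ext_getElem (by simp) fun i h1 h2 => ?_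
    simp only [List.getElem_take, List.getElem_ofFn]
    refine Function.update_of_ne ?_ _ _
    intro e; have := congrArg Fin.val e; simp at this h1; omega
  have e2 : (List.ofFn (Function.update f j v)).drop (j + 1) = (List.ofFn f).drop (j + 1) := by
    refine List.ext_getElem (by simp) fun i h1 h2 => ?_
    simp only [List.getElem_drop, List.getElem_ofFn]
    refine Function.update_of_ne ?_ _ _
    intro e; have := congrArg Fin.val e; simp at this; omega
  rw [e1, e2]

/-- The product of the extra commutators before slot `j`. -/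
def midN (j : Fin n) (y : YSp n s r) : Mat r :=
  ((List.finRange n).take j |>.map fun i => comm (y.1 i)).prod

lemma midN_eq (j : Fin n) (y : YSp n s r) :
    midN j y = ((List.ofFn fun i => comm (y.1 i)).take j).prod := by
  rw [midN, List.ofFn_eq_map, List.map_take]

/-- The product of everything before the `i`-th boundary matrix. -/
def midK (J : Fin s → Mat r) (i : Fin s) (y : YSp n s r) : Mat r :=
  rel y.1 * ((List.finRange s).take i |>.map (bd J y.2)).prod

lemma det_listProd {α : Type*} (L : List α) (f : α → Mat r) (h : ∀ a ∈ L, (f a).det = 1) :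
    (L.map f).prod.det = 1 := by
  induction L with
  | nil => simp
  | cons a L ih => simp [det_mul, h a (by simp), ih fun b hb => h b (by simp [hb])]

lemma tail_updN (J : Fin s → Mat r) (j : Fin n) (y : YSp n s r) (P : Mat r × Mat r) :
    tailRel J (Function.update y.1 j P, y.2) = midN j y * comm P *
      (((List.ofFn fun i => comm (y.1 i)).drop (j + 1)).prod * (List.ofFn (bd J y.2)).prod) := by
  have : (fun i => comm (Function.update y.1 j P i)) =
      Function.update (fun i => comm (y.1 i)) j (comm P) := by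
    funext i; by_cases h : i = j
    · subst h; simp
    · simp [h]
  rw [tailRel, rel, this, ofFn_prod_update, midN_eq, mul_assoc]

lemma tail_updK (J : Fin s → Mat r) (i : Fin s) (y : YSp n s r) (k : Mat r) :
    tailRel J (y.1, Function.update y.2 i k) = midK J i y * (k * J i * k.adjugate) *
      ((List.ofFn (bd J y.2)).drop (i + 1)).prod := by
  have : bd J (Function.update y.2 i k) = Function.update (bd J y.2) i (k * J i * k.adjugate) := by
    funext l; by_cases h : l = i
    · subst h; simp [bd]
    · simp [bd, h]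
  rw [tailRel, this, ofFn_prod_update, midK, List.map_take, ← List.ofFn_eq_map]
  simp only [mul_assoc]

lemma tail_splitN (J : Fin s → Mat r) (j : Fin n) (y : YSp n s r) :
    tailRel J y = midN j y * comm ((y.1 j).1, (y.1 j).2) *
      (((List.ofFn fun i => comm (y.1 i)).drop (j + 1)).prod * (List.ofFn (bd J y.2)).prod) := by
  have h := tail_updN J j y (y.1 j)
  rw [Function.update_eq_self] at h
  exact h

lemma tail_splitK (J : Fin s → Mat r) (i : Fin s) (y : YSp n s r) :
    tailRel J y = midK J i y * (y.2 i * J i * (y.2 i).adjugate) *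
      ((List.ofFn (bd J y.2)).drop (i + 1)).prod := by
  have h := tail_updK J i y (y.2 i)
  rw [Function.update_eq_self] at h
  exact h

lemma midN_det (j : Fin n) {y : YSp n s r} (hy : GoodY y) : (midN j y).det = 1 :=
  det_listProd _ _ fun i _ => hom_comm_det (hy.1 i).1 (hy.1 i).2

lemma slideA (J : Fin s → Mat r) (j : Fin n) {a b : Mat r} (ha : a.det = 1) (hb : b.det = 1)
    {y : YSp n s r} (hy : GoodY y) {k : Mat r} (hk : k.det = 1)
    (hc : k * (b.adjugate * midN j y * (y.1 j).1 * (midN j y).adjugate) =
      b.adjugate * midN j y * (y.1 j).1 * (midN j y).adjugate * k) :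
    comm (a * k.adjugate, k * b * k.adjugate) * tailRel J (Function.update y.1 j
        ((midN j y).adjugate * k * midN j y * (y.1 j).1 *
          ((midN j y).adjugate * k.adjugate * midN j y),
        (y.1 j).2 * ((midN j y).adjugate * k.adjugate * midN j y)), y.2) =
      comm (a, b) * tailRel J y := by
  rw [tail_updN, tail_splitN J j y]
  have h := comm_slide ha hb (hy.1 j).1 (hy.1 j).2 (midN_det j hy) hk hc
  simp only [← mul_assoc] at h ⊢
  rw [h]

lemma slideB (J : Fin s → Mat r) (j : Fin n) {a b : Mat r} (ha : a.det = 1) (hb : b.det = 1)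
    {y : YSp n s r} (hy : GoodY y) {k : Mat r} (hk : k.det = 1)
    (hc : k * (b.adjugate * midN j y * ((y.1 j).1 * (y.1 j).2) * (midN j y).adjugate) =
      b.adjugate * midN j y * ((y.1 j).1 * (y.1 j).2) * (midN j y).adjugate * k) :
    comm (a * k.adjugate, k * b * k.adjugate) * tailRel J (Function.update y.1 j
        ((midN j y).adjugate * k * midN j y * (y.1 j).1,
        (y.1 j).2 * ((midN j y).adjugate * k.adjugate * midN j y)), y.2) =
      comm (a, b) * tailRel J y := by
  have hM := midN_det j hy
  have hc1 : (y.1 j).1.det = 1 := (hy.1 j).1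
  have hd1 : (y.1 j).2.det = 1 := (hy.1 j).2
  have hK : ((midN j y).adjugate * k * midN j y).det = 1 := by simp [det_mul, det_adj hM, hM, hk]
  have hK' : ((midN j y).adjugate * k.adjugate * midN j y).det = 1 := by
    simp [det_mul, det_adj hM, hM, det_adj hk]
  have h := comm_slide ha hb (show ((y.1 j).1 * (y.1 j).2).det = 1 by
    rw [det_mul, hc1, hd1, one_mul]) hd1 hM hk hc
  have e1 := ((Surface.twA r).f_ok ((midN j y).adjugate * k * midN j y * (y.1 j).1,
    (y.1 j).2 * ((midN j y).adjugate * k.adjugate * midN j y))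
    (by rw [det_mul, hK, hc1, one_mul]) (by rw [det_mul, hd1, hK', one_mul])).2.2.1
  have e2 := ((Surface.twA r).f_ok ((y.1 j).1, (y.1 j).2) hc1 hd1).2.2.1
  simp only [Surface.twA] at e1 e2
  rw [tail_updN, tail_splitN J j y, ← e1, ← e2]
  simp only [← mul_assoc] at h ⊢
  rw [h]

lemma midK_det (J : Fin s → Mat r) (hJ : ∀ i, (J i).det = 1) (i : Fin s) {y : YSp n s r}
    (hy : GoodY y) : (midK J i y).det = 1 := by
  rw [midK, det_mul, det_listProd _ _ (fun l _ => by simp [bd, det_mul, det_adj (hy.2 l), hy.2, hJ]),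
    rel, List.ofFn_eq_map, det_listProd _ _ fun l _ => hom_comm_det (hy.1 l).1 (hy.1 l).2, one_mul]

lemma slideK (J : Fin s → Mat r) (hJ : ∀ i, (J i).det = 1) (i : Fin s) {a b : Mat r}
    (ha : a.det = 1) (hb : b.det = 1) {y : YSp n s r} (hy : GoodY y) {k : Mat r} (hk : k.det = 1)
    (hc : k * (b.adjugate * midK J i y * bd J y.2 i * (midK J i y).adjugate) =
      b.adjugate * midK J i y * bd J y.2 i * (midK J i y).adjugate * k) :
    Surface.comm (a * k.adjugate, k * b * k.adjugate) * tailRel J (y.1, Function.update y.2 i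
        ((midK J i y).adjugate * k * midK J i y * y.2 i)) =
      Surface.comm (a, b) * tailRel J y := by
  have hM := midK_det J hJ i hy
  rw [tail_updK, tail_splitK J i y]
  simp only [bd] at hc
  revert hM hc
  generalize midK J i y = M
  generalize ((List.ofFn (bd J y.2)).drop (i + 1)).prod = P
  generalize y.2 i = q
  intro hc hM
  have hA : M.adjugate.adjugate = M := left_inv_eq_right_inv (adj_mul (det_adj hM)) (adj_mul hM)
  have hkk : k.adjugate.adjugate = k := left_inv_eq_right_inv (adj_mul (det_adj hk)) (adj_mul hk)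
  rw [← mul_assoc _ _ P, ← mul_assoc _ _ P]
  congr 1
  calc Surface.comm (a * k.adjugate, k * b * k.adjugate) * (M * (M.adjugate * k * M * q * J i *
        (M.adjugate * k * M * q).adjugate))
      = a * (k.adjugate * k) * b * (k.adjugate * k) * a.adjugate * k * b.adjugate *
          (k.adjugate * (M * M.adjugate) * k) * (M * (q * J i * q.adjugate) * M.adjugate) *
            k.adjugate * M := by
        simp only [Surface.comm, adjugate_mul_distrib, hA, hkk, mul_assoc]
    _ = a * b * a.adjugate * (k * (b.adjugate * M * (q * J i * q.adjugate) * M.adjugate)) *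
          k.adjugate * M := by
        rw [adj_mul hk, mul_adj hM, mul_one, mul_one, mul_one, adj_mul hk, mul_one]
        simp only [mul_assoc]
    _ = a * b * a.adjugate * (b.adjugate * M * (q * J i * q.adjugate) * M.adjugate) *
          (k * k.adjugate) * M := by
        rw [hc]; simp only [mul_assoc]
    _ = a * b * a.adjugate * b.adjugate * M * (q * J i * q.adjugate) * (M.adjugate * M) := by
        rw [mul_adj hk, mul_one]; simp only [mul_assoc]
    _ = Surface.comm (a, b) * (M * (q * J i * q.adjugate)) := by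
        rw [adj_mul hM, mul_one]; simp only [Surface.comm, mul_assoc]

/-- `(c,d) ↦ (K c K⁻¹, d K⁻¹)`. -/
def pieceA (R : Subring ℂ) (J : Fin s → Mat r) (j : Fin n) : Piece R J n where
  pre := midN j
  mat y := (y.1 j).1
  upd y K K' := (Function.update y.1 j (K * (y.1 j).1 * K', (y.1 j).2 * K'), y.2)
  ppre := PMap.listProd _ _ fun i _ => (PMap.comm_slot i).comp PMap.fst
  pmat := PMap.fst.comp (PMap.yN j)
  pupd := by
    refine PMap.prodMk (PMap.pi fun i => ?_) (PMap.snd.comp PMap.fst)
    by_cases h : i = j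
    · subst h
      simp only [Function.update_self]
      exact (((PMap.fst.comp PMap.snd).mul (PMap.fst.comp ((PMap.yN i).comp PMap.fst))).mul
        (PMap.snd.comp PMap.snd)).prodMk
        ((PMap.snd.comp ((PMap.yN i).comp PMap.fst)).mul (PMap.snd.comp PMap.snd))
    · simp only [Function.update_of_ne h]
      exact (PMap.yN i).comp PMap.fst
  pre_det _ hy := midN_det j hy
  mat_det y hy := (hy.1 j).1
  pre_int y hy := IntMat.listProd fun M hM => by
    obtain ⟨i, -, rfl⟩ := List.mem_map.1 hM
    exact (((hy.1 _).1.mul (hy.1 _).2).mul (hy.1 _).1.adjugate).mul (hy.1 _).2.adjugate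
  mat_int y hy := (hy.1 j).1
  upd_good y hy K hK := by
    refine ⟨fun i => ?_, hy.2⟩
    by_cases h : i = j
    · subst h; simp [det_mul, det_adj hK, hK, hy.1]
    · simp [h, hy.1]
  upd_int y K K' hy hK hK' := by
    refine ⟨fun i => ?_, hy.2⟩
    by_cases h : i = j
    · subst h
      simp only [Function.update_self]
      exact ⟨(hK.mul (hy.1 i).1).mul hK', (hy.1 i).2.mul hK'⟩
    · simp only [Function.update_of_ne h]
      exact hy.1 i
  upd_one y := by simp
  slide _ _ ha hb _ hy _ hk hc := slideA J j ha hb hy hk hc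

/-- `(c,d) ↦ (K c, d K⁻¹)`. -/
def pieceB (R : Subring ℂ) (J : Fin s → Mat r) (j : Fin n) : Piece R J n where
  pre := midN j
  mat y := (y.1 j).1 * (y.1 j).2
  upd y K K' := (Function.update y.1 j (K * (y.1 j).1, (y.1 j).2 * K'), y.2)
  ppre := (pieceA R J j).ppre
  pmat := (PMap.fst.comp (PMap.yN j)).mul (PMap.snd.comp (PMap.yN j))
  pupd := by
    refine PMap.prodMk (PMap.pi fun i => ?_) (PMap.snd.comp PMap.fst)
    by_cases h : i = j
    · subst h
      simp only [Function.update_self]
      exact ((PMap.fst.comp PMap.snd).mul (PMap.fst.comp ((PMap.yN i).comp PMap.fst))).prodMk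
        ((PMap.snd.comp ((PMap.yN i).comp PMap.fst)).mul (PMap.snd.comp PMap.snd))
    · simp only [Function.update_of_ne h]
      exact (PMap.yN i).comp PMap.fst
  pre_det := (pieceA R J j).pre_det
  mat_det y hy := by simp [det_mul, hy.1]
  pre_int := (pieceA R J j).pre_int
  mat_int y hy := (hy.1 j).1.mul (hy.1 j).2
  upd_good y hy K hK := by
    refine ⟨fun i => ?_, hy.2⟩
    by_cases h : i = j
    · subst h; simp [det_mul, det_adj hK, hK, hy.1]
    · simp [h, hy.1]
  upd_int y K K' hy hK hK' := by
    refine ⟨fun i => ?_, hy.2⟩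
    by_cases h : i = j
    · subst h
      simp only [Function.update_self]
      exact ⟨hK.mul (hy.1 i).1, (hy.1 i).2.mul hK'⟩
    · simp only [Function.update_of_ne h]
      exact hy.1 i
  upd_one y := by simp
  slide _ _ ha hb _ hy _ hk hc := slideB J j ha hb hy hk hc

/-- `kᵢ ↦ K kᵢ`. -/
def pieceK (R : Subring ℂ) (J : Fin s → Mat r) (hJ : ∀ i, (J i).det = 1 ∧ IntMat R (J i))
    (i : Fin s) : Piece R J n where
  pre := midK J i
  mat y := bd J y.2 i
  upd y K _ := (y.1, Function.update y.2 i (K * y.2 i))
  ppre := (PMap.rel.comp PMap.fst).mul (PMap.listProd _ _ fun l _ => PMap.bd J l)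
  pmat := PMap.bd J i
  pupd := by
    refine PMap.prodMk (PMap.fst.comp PMap.fst) (PMap.pi fun l => ?_)
    by_cases h : l = i
    · subst h
      simp only [Function.update_self]
      exact (PMap.fst.comp PMap.snd).mul ((PMap.yk l).comp PMap.fst)
    · simp only [Function.update_of_ne h]
      exact (PMap.yk l).comp PMap.fst
  pre_det _ hy := midK_det J (fun i => (hJ i).1) i hy
  mat_det y hy := by simp [bd, det_mul, det_adj (hy.2 i), hy.2, hJ]
  pre_int y hy := by
    refine IntMat.mul (IntMat.listProd fun M hM => ?_) (IntMat.listProd fun M hM => ?_)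
    · obtain ⟨l, rfl⟩ := (List.mem_ofFn' _ _).1 hM
      exact (((hy.1 _).1.mul (hy.1 _).2).mul (hy.1 _).1.adjugate).mul (hy.1 _).2.adjugate
    · obtain ⟨l, -, rfl⟩ := List.mem_map.1 hM
      exact ((hy.2 l).mul (hJ l).2).mul (hy.2 l).adjugate
  mat_int y hy := ((hy.2 i).mul (hJ i).2).mul (hy.2 i).adjugate
  upd_good y hy K hK := by
    refine ⟨hy.1, fun l => ?_⟩
    by_cases h : l = i
    · subst h; simp [det_mul, hK, hy.2]
    · simp [h, hy.2]
  upd_int y K K' hy hK _ := by
    refine ⟨hy.1, fun l => ?_⟩
    by_cases h : l = i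
    · subst h; simp only [Function.update_self]; exact hK.mul (hy.2 l)
    · simp only [Function.update_of_ne h]; exact hy.2 l
  upd_one y := by simp
  slide _ _ ha hb _ hy _ hk hc := slideK J (fun i => (hJ i).1) i ha hb hy hk hc

end Vale.Agent.P002.General
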