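import Vale.Agent.P002.General.Compose

/-! At a mirrored Weyl pair over an integral tail the twist velocities fill the tangent space. -/

open Matrix Filter Topology NormedSpace

namespace Vale.Agent.P002.General

open Vale.Agent.P002.Surface (Mat Tup comm rel PF PMap mul_adj adj_mul det_adj Weyl tlPow Mir
  hasDerivAt_expu hasDerivAt_expu_neg pow_comm_left pow_comm_right)

attribute [local instance] Matrix.linftyOpNormedAddCommGroup Matrix.linftyOpNormedSpace
  Matrix.linftyOpNormedRing Matrix.linftyOpNormedAlgebra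

variable {r n s : ℕ} {R : Subring ℂ} {J : Fin s → Mat r}

/-- Velocities of nice flows. -/
def VelY (J : Fin s → Mat r) (R : Subring ℂ) (y0 : YSp n s r) (p : Sp n s r) : Set (Sp n s r) :=
  {v | ∃ Ψ, Nice J R y0 Ψ ∧ HasDerivAt (fun u => Ψ u p) v 0}

/-- Tail components of spanned velocities. -/
def TailVel (J : Fin s → Mat r) (R : Subring ℂ) (y0 : YSp n s r) (A B : Mat r) :
    Submodule ℂ (YSp n s r) :=
  (Submodule.span ℂ (VelY J R y0 (Mir 0 A B, y0))).map (LinearMap.snd ℂ (Tup 2 r) (YSp n s r))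

lemma weyl_span {ω : ℂ} {A B : Mat r} (hr : 2 ≤ r) (hW : Weyl ω A B)
    (hsp : Submodule.span ℂ
      (Set.range fun q : Fin r × Fin r => A ^ (q.1 : ℕ) * B ^ (q.2 : ℕ)) = ⊤) :
    Submodule.span ℂ {M : Mat r | ∃ e j : ℕ, 0 < e ∧ M = B.adjugate ^ j * A ^ e} = ⊤ := by
  rw [eq_top_iff, ← hsp, Submodule.span_le]
  rintro _ ⟨⟨i, j⟩, rfl⟩
  obtain ⟨hω, ha, hb, hab, ⟨ν, hν, hA⟩, ⟨μ, hμ, hB⟩⟩ := hW
  set S := Submodule.span ℂ {M : Mat r | ∃ e j : ℕ, 0 < e ∧ M = B.adjugate ^ j * A ^ e}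
  show A ^ (i : ℕ) * B ^ (j : ℕ) ∈ S
  have hBA : A ^ (i : ℕ) * B ^ (j : ℕ) =
      (((ω ^ (i : ℕ)) ^ (j : ℕ))) • (B ^ (j : ℕ) * A ^ (i : ℕ)) :=
    pow_comm_right (pow_comm_left hab i) j
  have hBj : B ^ (j : ℕ) = μ • B.adjugate ^ (r - j) := by
    calc B ^ (j : ℕ) = B ^ (j : ℕ) * (B ^ (r - j) * B.adjugate ^ (r - j)) := by
          rw [(adj_pow_mul hb _).1, mul_one]
      _ = μ • B.adjugate ^ (r - j) := by
          rw [← mul_assoc, ← pow_add, Nat.add_sub_cancel' j.2.le, hB, smul_mul_assoc, one_mul]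
  rw [hBA, hBj, smul_mul_assoc]
  refine S.smul_mem _ (S.smul_mem _ ?_)
  rcases Nat.eq_zero_or_pos (i : ℕ) with h0 | h0
  · have : B.adjugate ^ (r - (j : ℕ)) * A ^ (i : ℕ) =
        ν⁻¹ • (B.adjugate ^ (r - (j : ℕ)) * A ^ r) := by
      rw [h0, hA, mul_smul_comm, inv_smul_smul₀ hν, pow_zero]
    rw [this]
    exact S.smul_mem _ (Submodule.subset_span ⟨r, r - j, by omega, rfl⟩)
  · exact Submodule.subset_span ⟨i, r - j, h0, rfl⟩

/-- The traceless part, linearly. -/
noncomputable def tlL (r : ℕ) : Mat r →ₗ[ℂ] Mat r :=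
  LinearMap.id - ((r : ℂ)⁻¹ • Matrix.traceLinearMap (Fin r) ℂ ℂ).smulRight (1 : Mat r)

lemma tlL_apply (M : Mat r) : tlL r M = tlPow 1 M := by
  simp [tlL, Surface.tlPow, div_eq_inv_mul]

/-- Every traceless tangent of a piece is a spanned velocity. -/
lemma piece_span {ω : ℂ} {A B : Mat r} (hr : 2 ≤ r) (hW : Weyl ω A B)
    (hsp : Submodule.span ℂ
      (Set.range fun q : Fin r × Fin r => A ^ (q.1 : ℕ) * B ^ (q.2 : ℕ)) = ⊤)
    (P : Piece R J n) {y0 : YSp n s r} (hy : GoodY y0)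
    (L : Mat r →ₗ[ℂ] YSp n s r)
    (hL : ∀ (K K' : ℂ → Mat r) (E : Mat r), HasDerivAt K E 0 → HasDerivAt K' (-E) 0 → K 0 = 1 →
      K' 0 = 1 → HasDerivAt (fun u => P.upd y0 (K u) (K' u)) (L E) 0)
    {Z : Mat r} (hZ : Z.trace = 0) : L Z ∈ TailVel J R y0 A B := by
  obtain ⟨-, ha, hb, -, -, -⟩ := id hW
  set M := P.pre y0
  have hM : M.det = 1 := P.pre_det _ hy
  set X0 := M * P.mat y0 * M.adjugate
  have hX : X0.det = 1 := by simp [X0, det_mul, det_adj hM, hM, P.mat_det _ hy]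
  let Λ : Mat r →ₗ[ℂ] YSp n s r := L ∘ₗ (LinearMap.mulLeft ℂ M.adjugate) ∘ₗ
    (LinearMap.mulRight ℂ M) ∘ₗ (tlL r) ∘ₗ (LinearMap.mulRight ℂ X0)
  have key : ∀ e j : ℕ, 0 < e → Λ (B.adjugate ^ j * A ^ e) ∈ TailVel J R y0 A B := by
    intro e j he
    set p : Sp n s r := (Mir 0 A B, y0)
    set W := word P (e + 1) j p with hWdef
    have hWe : W = B.adjugate ^ j * A ^ e * X0 := by
      show (sigF (e + 1) j (Mir 0 A B) 1).2.adjugate * _ * _ * _ = _
      rw [sigF_mirror ha hb, adjugate_mul_distrib, adjugate_pow, adjugate_pow, adj_adj' ha]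
      simp only [X0, M, p, mul_assoc]
    have hdiff : DifferentiableAt ℂ (fun u => flow P (e + 1) j 1 u p) 0 :=
      (((flow_contDiff P (e + 1) j 1).comp (contDiff_id.prodMk contDiff_const)).differentiable
        one_ne_zero) 0
    refine ⟨deriv (fun u => flow P (e + 1) j 1 u p) 0,
      Submodule.subset_span ⟨_, nice P j hy he 1, hdiff.hasDerivAt⟩, ?_⟩
    have h1 := (ContinuousLinearMap.snd ℂ (Tup 2 r) (YSp n s r)).hasFDerivAt.comp_hasDerivAt
      (0 : ℂ) hdiff.hasDerivAt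
    have hK : HasDerivAt (fun u : ℂ => M.adjugate * exp (u • tlPow 1 W) * M)
        (M.adjugate * tlPow 1 W * M) 0 :=
      ((hasDerivAt_expu (tlPow 1 W)).const_mul M.adjugate).mul_const M
    have hK' : HasDerivAt (fun u : ℂ => M.adjugate * exp (-(u • tlPow 1 W)) * M)
        (-(M.adjugate * tlPow 1 W * M)) 0 := by
      have := ((hasDerivAt_expu_neg (tlPow 1 W)).const_mul M.adjugate).mul_const M
      refine this.congr_deriv ?_
      simp
    have h2 := hL _ _ _ hK hK' (by simp [adj_mul hM]) (by simp [adj_mul hM])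
    refine Eq.trans (b := L (M.adjugate * tlPow 1 W * M)) (h1.unique h2) ?_
    simp only [Λ, LinearMap.comp_apply, LinearMap.mulLeft_apply, LinearMap.mulRight_apply, tlL_apply,
      ← hWe, mul_assoc]
  have hrange : ∀ Y, Λ Y ∈ TailVel J R y0 A B := by
    intro Y
    have hY : Y ∈ Submodule.span ℂ {M : Mat r | ∃ e j : ℕ, 0 < e ∧ M = B.adjugate ^ j * A ^ e} := by
      rw [weyl_span hr hW hsp]; exact Submodule.mem_top
    refine (Submodule.span_le (p := (TailVel J R y0 A B).comap Λ)).2 ?_ hY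
    rintro _ ⟨e, j, he, rfl⟩
    exact key e j he
  have h := hrange (M * Z * M.adjugate * X0.adjugate)
  convert h using 1
  have e1 : M * Z * M.adjugate * X0.adjugate * X0 = M * Z * M.adjugate := by
    rw [mul_assoc, adj_mul hX, mul_one]
  have e2 : tlL r (M * Z * M.adjugate) = M * Z * M.adjugate := by
    rw [tlL_apply, Surface.tlPow, pow_one, trace_mul_cycle, adj_mul hM, one_mul, hZ, zero_div,
      zero_smul, sub_zero]
  show L Z = L (M.adjugate * (tlL r (M * Z * M.adjugate * X0.adjugate * X0) * M))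
  rw [e1, e2]
  congr 1
  rw [mul_assoc (M * Z), adj_mul hM, mul_one, ← mul_assoc, adj_mul hM, one_mul]

/-- A linearised solution in the tail. -/
def TanY (y0 v : YSp n s r) : Prop :=
  (∀ j, ((y0.1 j).1.adjugate * (v.1 j).1).trace = 0 ∧ ((y0.1 j).2.adjugate * (v.1 j).2).trace = 0) ∧
    ∀ i, ((y0.2 i).adjugate * v.2 i).trace = 0

/-- Velocity of `pieceA`. -/
noncomputable def dA (y0 : YSp n s r) (j : Fin n) : Mat r →ₗ[ℂ] YSp n s r where
  toFun E := (Pi.single j (E * (y0.1 j).1 - (y0.1 j).1 * E, -((y0.1 j).2 * E)), 0)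
  map_add' E E' := by
    ext : 1
    · rw [Prod.fst_add, ← Pi.single_add]; simp [add_mul, mul_add]; abel_nf; exact ⟨trivial, trivial⟩
    · simp
  map_smul' c E := by
    ext : 1
    · rw [Prod.smul_fst, ← Pi.single_smul']; simp [smul_sub]
    · simp

/-- Velocity of `pieceB`. -/
noncomputable def dB (y0 : YSp n s r) (j : Fin n) : Mat r →ₗ[ℂ] YSp n s r where
  toFun E := (Pi.single j (E * (y0.1 j).1, -((y0.1 j).2 * E)), 0)
  map_add' E E' := by
    ext : 1
    · rw [Prod.fst_add, ← Pi.single_add]; simp [add_mul, mul_add]; abel_nf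
    · simp
  map_smul' c E := by
    ext : 1
    · rw [Prod.smul_fst, ← Pi.single_smul']; simp
    · simp

/-- Velocity of `pieceK`. -/
noncomputable def dK (y0 : YSp n s r) (i : Fin s) : Mat r →ₗ[ℂ] YSp n s r where
  toFun E := (0, Pi.single i (E * y0.2 i))
  map_add' E E' := by
    ext : 1
    · simp
    · rw [Prod.snd_add, ← Pi.single_add]; simp [add_mul]
  map_smul' c E := by
    ext : 1
    · simp
    · rw [Prod.smul_snd, ← Pi.single_smul']; simp

lemma hasDerivAt_update {m : ℕ} {V : Type*} [NormedAddCommGroup V] [NormedSpace ℂ V]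
    (f : Fin m → V) (j : Fin m) {φ : ℂ → V} {v : V} (h : HasDerivAt φ v 0) :
    HasDerivAt (fun u => Function.update f j (φ u)) (Pi.single j v) 0 := by
  refine hasDerivAt_pi.2 fun i => ?_
  by_cases hi : i = j
  · subst hi; simpa using h
  · simpa [hi] using hasDerivAt_const (0 : ℂ) (f i)

/-- The velocities of twists span all tail tangents. -/
lemma tail_tan_in_span {ω : ℂ} {A B : Mat r} (hr : 2 ≤ r) (hW : Weyl ω A B)
    (hsp : Submodule.span ℂ
      (Set.range fun q : Fin r × Fin r => A ^ (q.1 : ℕ) * B ^ (q.2 : ℕ)) = ⊤)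
    (hJ : ∀ i, (J i).det = 1 ∧ Twisted.IntMat R (J i))
    {y0 : YSp n s r} (hy : GoodY y0) {v : YSp n s r} (hv : TanY y0 v) :
    v ∈ TailVel J R y0 A B := by
  set S := TailVel J R y0 A B
  have hA : ∀ j Z, Z.trace = 0 → dA y0 j Z ∈ S := fun j Z hZ =>
    piece_span hr hW hsp (pieceA R J j) hy (dA y0 j) (fun K K' E hK hK' h1 h2 => by
      have := (hasDerivAt_update y0.1 j ((((hK.mul_const (y0.1 j).1).fun_mul hK')).prodMk
        (hK'.const_mul (y0.1 j).2))).prodMk (hasDerivAt_const (0 : ℂ) y0.2)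
      refine this.congr_deriv ?_
      simp [dA, h1, h2, sub_eq_add_neg]) hZ
  have hB : ∀ j Z, Z.trace = 0 → dB y0 j Z ∈ S := fun j Z hZ =>
    piece_span hr hW hsp (pieceB R J j) hy (dB y0 j) (fun K K' E hK hK' _ _ => by
      have := (hasDerivAt_update y0.1 j ((hK.mul_const (y0.1 j).1).prodMk
        (hK'.const_mul (y0.1 j).2))).prodMk (hasDerivAt_const (0 : ℂ) y0.2)
      refine this.congr_deriv ?_
      simp [dB]) hZ
  have hK : ∀ i Z, Z.trace = 0 → dK y0 i Z ∈ S := fun i Z hZ =>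
    piece_span hr hW hsp (pieceK R J hJ i) hy (dK y0 i) (fun K K' E hK _ _ _ => by
      have := (hasDerivAt_const (0 : ℂ) y0.1).prodMk
        (hasDerivAt_update y0.2 i (hK.mul_const (y0.2 i)))
      exact this) hZ
  have hN : ∀ j, ((Pi.single (M := fun _ : Fin n => Mat r × Mat r) j (v.1 j), 0) : YSp n s r) ∈ S := by
    intro j
    obtain ⟨h1, h2⟩ := hv.1 j
    set c := (y0.1 j).1
    set d := (y0.1 j).2
    have hc : c.det = 1 := (hy.1 j).1
    have hd : d.det = 1 := (hy.1 j).2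
    set Z1 := c.adjugate * (v.1 j).1
    set Z2 := d.adjugate * (v.1 j).2
    have h3 : (c.adjugate * Z2 * c).trace = 0 := by
      rw [trace_mul_cycle, mul_adj hc, one_mul]; exact h2
    have hsum := S.add_mem (S.sub_mem (hB j (Z1 + c.adjugate * Z2 * c) (by rw [trace_add, h1, h3, add_zero]))
      (hA j (Z1 + c.adjugate * Z2 * c) (by rw [trace_add, h1, h3, add_zero])))
      (hB j (-Z2) (by rw [trace_neg, h2, neg_zero]))
    convert hsum using 1
    have e1 : c * Z1 = (v.1 j).1 := by rw [← mul_assoc, mul_adj hc, one_mul]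
    have e2 : d * Z2 = (v.1 j).2 := by rw [← mul_assoc, mul_adj hd, one_mul]
    have e3 : c * (c.adjugate * Z2 * c) = Z2 * c := by
      rw [← mul_assoc, ← mul_assoc, mul_adj hc, one_mul]
    refine Prod.ext ?_ (by simp [dA, dB])
    show Pi.single (M := fun _ : Fin n => Mat r × Mat r) j (v.1 j) = _
    simp only [dA, dB, LinearMap.coe_mk, AddHom.coe_mk, Prod.fst_add, Prod.fst_sub,
      ← Pi.single_sub, ← Pi.single_add]
    congr 1
    refine Prod.ext ?_ ?_
    · simp only [Prod.fst_add, Prod.fst_sub, neg_mul, sub_sub_cancel, mul_add]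
      show (v.1 j).1 = c * Z1 + c * (c.adjugate * Z2 * c) + -(Z2 * c)
      rw [e1, e3]; abel
    · simp only [Prod.snd_add, Prod.snd_sub, sub_self, zero_add, mul_neg, neg_neg]
      exact e2.symm
  have hk : ∀ i, ((0, Pi.single i (v.2 i)) : YSp n s r) ∈ S := by
    intro i
    have := hK i (v.2 i * (y0.2 i).adjugate) (by rw [trace_mul_comm]; exact hv.2 i)
    simpa [dK, mul_assoc, adj_mul (hy.2 i)] using this
  have e : v = ∑ j, ((Pi.single (M := fun _ : Fin n => Mat r × Mat r) j (v.1 j), 0) : YSp n s r) +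
      ∑ i, ((0, Pi.single i (v.2 i)) : YSp n s r) := by
    refine Prod.ext ?_ ?_ <;>
      simp [Prod.fst_sum, Prod.snd_sum, Finset.univ_sum_single]
  rw [e]
  exact S.add_mem (S.sum_mem fun j _ => hN j) (S.sum_mem fun i _ => hk i)

/-- The equations cutting out `HomS`. -/
def eqS (J : Fin s → Mat r) (p : Sp n s r) :
    ((Fin 2 → ℂ × ℂ) × Mat r) × ((Fin n → ℂ × ℂ) × (Fin s → ℂ)) :=
  ((fun i => ((p.1 i).1.det, (p.1 i).2.det), rel p.1 * tailRel J p.2),
    (fun i => ((p.2.1 i).1.det, (p.2.1 i).2.det), fun i => (p.2.2 i).det))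

lemma PMap.eqS : PMap (fun p : Sp n s r => General.eqS J p) := by
  refine PMap.prodMk (PMap.prodMk (PMap.pi fun i => ?_)
    ((PMap.rel.comp PMap.fst).mul ((PMap.tailRel J).comp PMap.snd)))
    (PMap.prodMk (PMap.pi fun i => ?_) (PMap.pi fun i => ?_))
  · exact (PF.pmap (PMap.det' fun a b => (PMap.fst.comp (PMap.px i)).entry a b)).prodMk
      (PF.pmap (PMap.det' fun a b => (PMap.snd.comp (PMap.px i)).entry a b))
  · exact (PF.pmap (PMap.det' fun a b =>
      (PMap.fst.comp ((PMap.yN i).comp PMap.snd)).entry a b)).prodMk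
      (PF.pmap (PMap.det' fun a b => (PMap.snd.comp ((PMap.yN i).comp PMap.snd)).entry a b))
  · exact PF.pmap (PMap.det' fun a b => ((PMap.yk i).comp PMap.snd).entry a b)

lemma eqS_hom {p : Sp n s r} (hp : p ∈ HomS J) :
    eqS J p = ((fun _ => (1, 1), 1), (fun _ => (1, 1), fun _ => 1)) := by
  simp only [eqS, hp.2.2, (hp.1 _).1, (hp.1 _).2, (hp.2.1.1 _).1, (hp.2.1.1 _).2, hp.2.1.2 _]

lemma trace_of_det_line {P w : Mat r} (hP : P.det = 1)
    (h : HasDerivAt (fun z : ℂ => (P + z • w).det) 0 0) : (P.adjugate * w).trace = 0 := by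
  have e : (fun z : ℂ => (P + z • w).det) = fun z : ℂ => (1 + z • (P.adjugate * w)).det := by
    funext z
    conv_lhs => rw [show P + z • w = P * (1 + z • (P.adjugate * w)) by
      rw [mul_add, mul_one, mul_smul_comm, ← mul_assoc, mul_adj hP, one_mul]]
    rw [det_mul, hP, one_mul]
  rw [e] at h
  exact (Surface.hasDerivAt_det_one_add _).unique h

/-- Near a mirrored Weyl pair over an integral tail, `HomS` is a piece of the closure. -/
theorem exists_param {ω : ℂ} {A B : Mat r} (hr : 2 ≤ r) (hW : Weyl ω A B)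
    (hsp : Submodule.span ℂ
      (Set.range fun q : Fin r × Fin r => A ^ (q.1 : ℕ) * B ^ (q.2 : ℕ)) = ⊤)
    (hJ : ∀ i, (J i).det = 1 ∧ Twisted.IntMat R (J i))
    {y0 : YSp n s r} (hy : GoodY y0) (hyi : IntY R y0) (hy1 : tailRel J y0 = 1) :
    ∃ U : Set (Sp n s r), IsOpen U ∧ ((Mir 0 A B, y0) : Sp n s r) ∈ U ∧
      ∃ (N K : ℕ) (Φ : (Fin K → ℂ) × (Fin N → ℂ) → Sp n s r), ContDiff ℂ 1 Φ ∧
        Φ 0 = (Mir 0 A B, y0) ∧ (∀ t, Φ t ∈ ClS J R) ∧ ∀ x ∈ U ∩ HomS J, ∃ t, Φ t = x := by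
  classical
  have hA := hW.2.1
  have hB := hW.2.2.1
  set p : Sp n s r := (Mir 0 A B, y0) with hp
  obtain ⟨bS, hbS, hbSspan, hbSli⟩ := exists_linearIndependent ℂ (Surface.Vel (Mir 0 A B))
  obtain ⟨bY, hbY, hbYspan, hbYli⟩ := exists_linearIndependent ℂ (VelY J R y0 p)
  have : Fintype bS := hbSli.setFinite.fintype
  have : Fintype bY := hbYli.setFinite.fintype
  let K := Fintype.card bS
  let N := Fintype.card bY
  let eS : Fin K ≃ bS := (Fintype.equivFin bS).symm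
  let eY : Fin N ≃ bY := (Fintype.equivFin bY).symm
  choose ΨS hΨS using fun i : Fin K => hbS (eS i).2
  choose ΨY hΨY using fun i : Fin N => hbY (eY i).2
  let Φ : (Fin K → ℂ) × (Fin N → ℂ) → Sp n s r := fun t =>
    composeS N ΨY t.2 (Surface.compose K ΨS t.1 (Mir 0 A B), y0)
  have hΦcl : ∀ t, Φ t ∈ ClS J R := fun t =>
    composeS_mem_cl hy hyi hy1 K ΨS (fun i => (hΨS i).1) N ΨY (fun i => (hΨY i).1) A B hA hB t.2 t.1
  have hΦc : ContDiff ℂ 1 Φ := by
    have h1 : ContDiff ℂ 1 (fun t : (Fin K → ℂ) × (Fin N → ℂ) =>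
        ((Surface.compose K ΨS t.1 (Mir 0 A B), y0) : Sp n s r)) :=
      ((Surface.compose_contDiff K ΨS fun i => (hΨS i).1).comp
        (contDiff_fst.prodMk contDiff_const)).prodMk contDiff_const
    exact (composeS_contDiff N ΨY fun i => (hΨY i).1).comp (contDiff_snd.prodMk h1)
  have hpH : p ∈ HomS J := ClS.subset_hom
    (base_mem_cl hy hyi hy1 0 (fun i => i.elim0) (fun i => i.elim0) hA hB 0)
  have hS0 : Surface.compose K ΨS 0 (Mir 0 A B) = Mir 0 A B :=
    Surface.compose_zero K ΨS (fun i => (hΨS i).1) _ (Surface.Mir_mem_hom hA hB)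
  have hY0 : composeS N ΨY 0 p = p := composeS_zero N ΨY (fun i => (hΨY i).1) p hpH
  have hΦ0 : Φ 0 = p := by simp only [Φ, Prod.fst_zero, Prod.snd_zero, hS0, ← hp, hY0]
  set D := fderiv ℂ Φ 0
  have hD : HasFDerivAt Φ D 0 := ((hΦc.differentiable one_ne_zero) 0).hasFDerivAt
  set W := (D : ((Fin K → ℂ) × (Fin N → ℂ)) →ₗ[ℂ] Sp n s r).range
  have hline : ∀ (e : (Fin K → ℂ) × (Fin N → ℂ)) (v : Sp n s r),
      HasDerivAt (fun u : ℂ => Φ (u • e)) v 0 → v ∈ W := by
    intro e v hv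
    have hl : HasDerivAt (fun u : ℂ => u • e) e 0 := by
      simpa using (hasDerivAt_id (0 : ℂ)).smul_const e
    have h0 : HasFDerivAt Φ D ((0 : ℂ) • e) := by simpa using hD
    have h1 := h0.comp_hasDerivAt (0 : ℂ) hl
    exact ⟨e, h1.unique hv⟩
  have hWS : ∀ x ∈ Submodule.span ℂ (Surface.Vel (Mir 0 A B)), ((x, 0) : Sp n s r) ∈ W := by
    rw [← hbSspan]
    intro x hx
    refine (Submodule.span_le (p := W.comap (LinearMap.inl ℂ (Tup 2 r) (YSp n s r)))).2 ?_ hx
    intro x hx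
    obtain ⟨i, hi⟩ := eS.surjective ⟨x, hx⟩
    refine hline (Pi.single i 1, 0) _ ?_
    have hd : HasDerivAt (fun u => ((ΨS i u (Mir 0 A B), y0) : Sp n s r))
        ((eS i : Tup 2 r), 0) 0 := (hΨS i).2.prodMk (hasDerivAt_const (0 : ℂ) y0)
    rw [hi] at hd
    refine hd.congr_of_eventuallyEq (Eventually.of_forall fun u => ?_)
    have hu : ΨS i u (Mir 0 A B) ∈ Surface.Hom (0 + 2) r := Surface.Cl.subset_hom
      (Surface.compose_mem_cl 1 (fun _ => ΨS i) (fun _ => (hΨS i).1) _ ⟨A, B, hA, hB, rfl⟩ fun _ => u)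
    show composeS N ΨY (u • (0 : Fin N → ℂ)) (Surface.compose K ΨS (u • Pi.single i 1) _, y0) = _
    rw [smul_zero, ← Pi.single_smul, smul_eq_mul, mul_one,
      Surface.compose_single K ΨS (fun i => (hΨS i).1) i u _ (Surface.Mir_mem_hom hA hB) hu]
    exact composeS_zero N ΨY (fun i => (hΨY i).1) _ ⟨hu.1, hy, by rw [hu.2, hy1, one_mul]⟩
  have hWY : Submodule.span ℂ (VelY J R y0 p) ≤ W := by
    rw [← hbYspan, Submodule.span_le]
    intro x hx
    obtain ⟨i, hi⟩ := eY.surjective ⟨x, hx⟩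
    refine hline (0, Pi.single i 1) _ ?_
    have hd := (hΨY i).2
    rw [hi] at hd
    refine hd.congr_of_eventuallyEq (Eventually.of_forall fun u => ?_)
    have hu : ΨY i u p ∈ HomS J := ClS.subset_hom (composeS_mem_cl hy hyi hy1 0 (fun i => i.elim0)
      (fun i => i.elim0) 1 (fun _ => ΨY i) (fun _ => (hΨY i).1) A B hA hB (fun _ => u) 0)
    show composeS N ΨY (u • Pi.single i 1) (Surface.compose K ΨS (u • (0 : Fin K → ℂ)) _, y0) = _
    rw [smul_zero, hS0, ← Pi.single_smul, smul_eq_mul, mul_one]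
    exact composeS_single N ΨY (fun i => (hΨY i).1) i u p hpH hu
  set c := eqS J p
  have hc : ∀ t, eqS J (Φ t) = c := fun t => by
    simp only [c, eqS_hom (ClS.subset_hom (hΦcl t)), eqS_hom hpH]
  have hF := (PMap.eqS (n := n) (J := J)).contDiff
  set F' := fderiv ℂ (fun x : Sp n s r => eqS J x) p with hF'def
  have hF' : HasFDerivAt (fun x : Sp n s r => eqS J x) F' p :=
    ((hF.differentiable one_ne_zero) p).hasFDerivAt
  have hkill : ∀ v ∈ W, F' v = 0 := by
    rintro v ⟨e, rfl⟩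
    have h1 : HasFDerivAt (fun t => eqS J (Φ t)) (F'.comp D) 0 :=
      (show HasFDerivAt (fun x : Sp n s r => eqS J x) F' (Φ 0) by rw [hΦ0]; exact hF').comp 0 hD
    have h2 : HasFDerivAt (fun t => eqS J (Φ t))
        (0 : ((Fin K → ℂ) × (Fin N → ℂ)) →L[ℂ] _) 0 := by
      simp only [hc]; exact hasFDerivAt_const c 0
    exact congrArg (fun T => T e) (h1.unique h2)
  have hker : ∀ w, F' w = 0 → w ∈ W := by
    intro w hw
    have hl : HasDerivAt (fun z : ℂ => p + z • w) w 0 := by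
      have := ((hasDerivAt_id (0 : ℂ)).smul_const w).const_add p
      simp only [id, one_smul] at this
      exact this
    have hFw : HasDerivAt (fun z : ℂ => eqS J (p + z • w)) 0 0 := by
      have h0 : HasFDerivAt (fun x : Sp n s r => eqS J x) F' (p + (0 : ℂ) • w) := by simpa using hF'
      exact (h0.comp_hasDerivAt (0 : ℂ) hl).congr_deriv hw
    have hsnd := (ContinuousLinearMap.snd ℂ ((Fin 2 → ℂ × ℂ) × Mat r)
      ((Fin n → ℂ × ℂ) × (Fin s → ℂ))).hasFDerivAt.comp_hasDerivAt (0 : ℂ) hFw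
    have hN := hasDerivAt_pi.1 ((ContinuousLinearMap.fst ℂ (Fin n → ℂ × ℂ)
      (Fin s → ℂ)).hasFDerivAt.comp_hasDerivAt (0 : ℂ) hsnd)
    have hk := hasDerivAt_pi.1 ((ContinuousLinearMap.snd ℂ (Fin n → ℂ × ℂ)
      (Fin s → ℂ)).hasFDerivAt.comp_hasDerivAt (0 : ℂ) hsnd)
    have htan : TanY y0 w.2 := by
      refine ⟨fun j => ⟨trace_of_det_line (hy.1 j).1 ?_, trace_of_det_line (hy.1 j).2 ?_⟩,
        fun i => trace_of_det_line (hy.2 i) ?_⟩
      · exact (ContinuousLinearMap.fst ℂ ℂ ℂ).hasFDerivAt.comp_hasDerivAt (0 : ℂ) (hN j)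
      · exact (ContinuousLinearMap.snd ℂ ℂ ℂ).hasFDerivAt.comp_hasDerivAt (0 : ℂ) (hN j)
      · exact hk i
    obtain ⟨v, hv, hv2⟩ := tail_tan_in_span (R := R) hr hW hsp hJ hy htan
    have hvW : v ∈ W := hWY hv
    have hx : F' (w.1 - v.1, 0) = 0 := by
      rw [show ((w.1 - v.1, 0) : Sp n s r) = w - v from Prod.ext rfl (by
        show (0 : YSp n s r) = w.2 - v.2
        rw [show v.2 = w.2 from hv2, sub_self])]
      rw [map_sub, hw, hkill v hvW, sub_zero]
    have hι : HasFDerivAt (fun x : Tup (0 + 2) r => ((x, y0) : Sp n s r))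
        (ContinuousLinearMap.inl ℂ (Tup 2 r) (YSp n s r)) (Mir 0 A B) :=
      (hasFDerivAt_id (𝕜 := ℂ) (Mir 0 A B)).prodMk (hasFDerivAt_const y0 _)
    have hG : HasFDerivAt (fun x : Tup (0 + 2) r => Surface.eqn x)
        ((ContinuousLinearMap.fst ℂ ((Fin 2 → ℂ × ℂ) × Mat r)
          ((Fin n → ℂ × ℂ) × (Fin s → ℂ))).comp
            (F'.comp (ContinuousLinearMap.inl ℂ (Tup 2 r) (YSp n s r)))) (Mir 0 A B) := by
      have h := (ContinuousLinearMap.fst ℂ ((Fin 2 → ℂ × ℂ) × Mat r)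
        ((Fin n → ℂ × ℂ) × (Fin s → ℂ))).hasFDerivAt.comp (Mir 0 A B) (hF'.comp (Mir 0 A B) hι)
      refine h.congr_of_eventuallyEq (Eventually.of_forall fun x => ?_)
      show Surface.eqn x = (fun i => ((x i).1.det, (x i).2.det), rel x * tailRel J y0)
      rw [hy1, mul_one]; rfl
    obtain ⟨Y, hY, hxY⟩ := Surface.tan_of_ker hW (by omega) hG (w := w.1 - v.1)
      (congrArg Prod.fst hx)
    have hxW : ((w.1 - v.1, 0) : Sp n s r) ∈ W := by
      rw [hxY]
      exact hWS _ (Surface.tan_in_span hr hW hsp Y hY)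
    have e : w = (w.1 - v.1, 0) + v := by
      refine Prod.ext (by simp) ?_
      show w.2 = 0 + v.2
      rw [zero_add, show v.2 = w.2 from hv2]
    rw [e]
    exact W.add_mem hxW hvW
  obtain ⟨U, hUo, hU0, hU⟩ := open_of_param hF hΦc hc
    (fun w hw => hker w (by rw [hF'def, ← hΦ0]; exact hw))
  rw [hΦ0] at hU0
  exact ⟨U, hUo, hU0, N, K, Φ, hΦc, hΦ0, hΦcl, fun x hx =>
    hU x hx.1 (by simp only [c, eqS_hom hx.2, eqS_hom hpH])⟩

end Vale.Agent.P002.General
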